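import Mathlib.AlgebraicGeometry.Morphisms.Finite
import Vale.Agent.P283R.Sl

/-!
# Bounded klt complements: finite covers
-/

open CategoryTheory AlgebraicGeometry

namespace Vale.Agent.P283R.Sl

open Var

/-- `L` is spanned by `J` elements over the image of `i`. -/
def Spanned (J : ℕ) {K L : Type} [Field L] (i : K → L) : Prop :=
  ∃ b : Fin J → L, ∀ g, ∃ c : Fin J → K, g = ∑ j, i (c j) * b j

/-- The embeddings of the function fields. -/
abbrev Var.Emb (V Y : Var) : Type := V.K →+* Y.K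

/-- The value of an embedding. -/
noncomputable abbrev Var.Emb.app {V Y : Var} (p : Emb V Y) (g : V.K) : Y.K := p g

variable {X Y Z : Var} {d : ℕ}

/-- `π : Y → X` is a finite surjective morphism of degree at most `J`, `B'` is effective and
`K_Y + B' = π^* (K_X + B)`: `1 - B'(E) = e (1 - B(y))` for every prime divisor `E` of `Y`, with the
image `y` and the ramification index `e`; `p` is the pull back of the rational functions. -/
def CrepantCover (J : ℕ) (π : Y.X ⟶ X.X) (B' : Y.QDiv) (B : X.QDiv) : Prop :=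
  IsFinite π ∧ Surjective π ∧ π ≫ X.str = Y.str ∧ ∃ p : Emb X Y,
    (∀ (y : Pt Y.X) (a : St X.X (y.map π)), p.app (toRat a) = toRat (comap π y a)) ∧
    Spanned J p.app ∧ ∀ E : Y.PrimeDiv, ∃ (y : X.PrimeDiv) (e : ℕ), E.1.map π = y.1 ∧
      (∀ a, ord (p.app a) E = e * ord a y) ∧ 0 ≤ B'.coeff E ∧
      1 - B'.coeff E = e * (1 - B.coeff y)

/-- For some cover `π : (Y, B') → (X, B)` of degree at most `J`, with the Stein factorization
`Y → W → Z` of `Y → X → Z`, the contraction `g : Y → W` with `B'` satisfies `C` at all points `w`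
over `z`. -/
def Covered (J : ℕ) (C : ∀ Y W : Var, (Y.X ⟶ W.X) → Y.Form d → Y.QDiv → Pt W.X → Prop)
    (f : X.X ⟶ Z.X) (B : X.QDiv) (z : Pt Z.X) : Prop :=
  ∃ (Y W : Var) (g : Y.X ⟶ W.X) (π : Y.X ⟶ X.X) (e : W.X ⟶ Z.X) (ω' : Y.Form d) (B' : Y.QDiv),
    CrepantCover J π B' B ∧ Contraction g ∧ IsFinite e ∧ g ≫ e = π ≫ f ∧ ω'.Nonzero ∧
      ∀ w : Pt W.X, w.map e = z → C Y W g ω' B' w

end Vale.Agent.P283R.Sl
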