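import Mathlib.RingTheory.Smooth.Basic
import Mathlib.RingTheory.Ideal.Height
import Mathlib.AlgebraicGeometry.Morphisms.Etale
import Vale.Agent.P283R.Sl

/-!
# Bounded klt complements: quotients of complete intersections, toric varieties
-/

open CategoryTheory AlgebraicGeometry

namespace Vale.Agent.P283R.Sl

open Var

section

variable {K : Type} [Field K] [Algebra ℂ K]

/-- `Y = Spec (S / I)` is a normal complete intersection of codimension `c` in the smooth affine
variety `Spec S`, `G` is a finite group of automorphisms of `Spec S` which preserves `Y` and acts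
on `Y` freely in codimension one, and `i` identifies `A` with the invariant functions on `Y`. -/
structure IsQuot (c : ℕ) {S : Type} [CommRing S] [Algebra ℂ S] (A : Set K) (I : Ideal S)
    (G : Subgroup (S ≃ₐ[ℂ] S)) (i : K →ₐ[ℂ] FractionRing (S ⧸ I)) : Prop where
  domain : IsDomain S
  smooth : Algebra.Smooth ℂ S
  prime : I.IsPrime
  ci : I.height = c ∧ ∃ f : Fin c → S, I = Ideal.span (Set.range f)
  normal : IsIntegrallyClosed (S ⧸ I)
  finite : Finite G
  stable : ∀ g ∈ G, ∀ s ∈ I, g s ∈ I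
  free : ∀ g ∈ G, g ≠ 1 → ∀ p : Ideal S, p.IsPrime → I ≤ p → (∀ s, g s - s ∈ p) →
    I.height + 2 ≤ p.height
  inv : ∀ b, (∃ a ∈ A, i a = b) ↔
    ∃ s : S, (∀ g ∈ G, g s - s ∈ I) ∧ algebraMap (S ⧸ I) _ (Ideal.Quotient.mk I s) = b

/-- `A` is the ring of functions of a quotient `Y / G` with `Y` in `Spec S`. -/
def Quot (c : ℕ) (A : Set K) (S : Type) [CommRing S] [Algebra ℂ S] : Prop :=
  ∃ I G i, IsQuot c (S := S) A I G i

/-- `A` is the ring of functions of a quotient `Y / G` with `Y` in `Spec S`, and `a ^ q` is a unit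
times the `r`-th power of a regular function `s` on `Y`: `(q / r) div a = div s`. -/
def QuotCut (c q r : ℕ) (A : Set K) (a : K) (S : Type) [CommRing S] [Algebra ℂ S] : Prop :=
  ∃ I G i, IsQuot c (S := S) A I G i ∧
    ∃ (s : S ⧸ I) (u : (S ⧸ I)ˣ), i a ^ q = algebraMap (S ⧸ I) _ (u * s ^ r)

/-- `A` is spanned by the monomials `y ^ m`, `m ∈ S`, for a set `S` which generates the lattice:
the coordinate ring of an affine toric variety whose torus has the coordinates `y`. -/
def ToricRing {d : ℕ} (y : Fin d → K) (A : Set K) : Prop :=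
  ∃ S : Set (Fin d → ℤ), AddSubgroup.closure S = ⊤ ∧
    A = Submodule.span ℂ ((fun m => ∏ i, y i ^ m i) '' S)

/-- The functions `y` are algebraically independent. -/
def Independent {d : ℕ} (y : Fin d → K) : Prop := AlgebraicIndependent ℂ y

end

variable {W X Z : Var} {d : ℕ}

/-- An affine neighbourhood `U` of `z` in `Z` is a quotient `Y / G`. -/
def Lciq (c : ℕ) (Z : Var) (z : Pt Z.X) : Prop :=
  ∃ (U : Z.X.Opens) (S : Type) (_ : CommRing S) (_ : Algebra ℂ S),
    IsAffineOpen U ∧ z.In U ∧ Quot c (regOn U) S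

/-- An affine neighbourhood `U` of `z` is a quotient `Y / G`, `r D = div a` near `z`, and the pull
back of `q D` to `Y` is the divisor of a regular function. -/
def LciqCut (c q : ℕ) (Z : Var) (z : Pt Z.X) (D : Z.PrimeDiv → ℚ) : Prop :=
  ∃ (U : Z.X.Opens) (r : ℕ) (a : Z.K) (S : Type) (_ : CommRing S) (_ : Algebra ℂ S),
    IsAffineOpen U ∧ z.In U ∧ 0 < r ∧ LocalEq D r a z ∧ QuotCut c q r (regOn U) a S

/-- `D'` and `D` have the same coefficient at prime divisors which correspond under `f`. -/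
def SameCoeff (f : X.X ⟶ Z.X) (D' : X.PrimeDiv → ℚ) (D : Z.PrimeDiv → ℚ) : Prop :=
  ∀ (E : X.PrimeDiv) (y : Z.PrimeDiv), E.1.map f = y.1 → D' E = D y

/-- `e : (W, w) → (Z, z)` is an étale neighbourhood of `z`, with `w` a closed point. -/
def EtNb (e : W.X ⟶ Z.X) (w : Pt W.X) (z : Pt Z.X) : Prop :=
  Etale e ∧ e ≫ Z.str = W.str ∧ w.map e = z ∧ w.Closed

/-- A quotient singularity: étale locally at `z`, `Z` is a quotient `Y / G` with `Y` smooth. -/
def QuotSing (Z : Var) (z : Pt Z.X) : Prop :=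
  ∃ (W : Var) (e : W.X ⟶ Z.X) (w : Pt W.X), EtNb e w z ∧ Lciq 0 W w

/-- Étale locally at `z`, `Z` is a quotient `Y / G` of a complete intersection `Y`, and the pull
back of `q D` to `Y` is the divisor of a regular function. -/
def LciqSing (q : ℕ) (Z : Var) (z : Pt Z.X) (D : Z.PrimeDiv → ℚ) : Prop :=
  ∃ (c : ℕ) (W : Var) (e : W.X ⟶ Z.X) (w : Pt W.X) (D' : W.PrimeDiv → ℚ), EtNb e w z ∧
    SameCoeff e D' D ∧ LciqCut c q W w D'

/-- `f` is birational, and `K_X + B` is `ℚ`-linearly trivial near the fibre over `z` (automatic for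
`f` the identity). -/
def Crepant (f : X.X ⟶ Z.X) (ω : X.Form d) (B : X.QDiv) (z : Pt Z.X) : Prop :=
  (∃ p, IsPull f p) ∧
    ∃ m g, 0 < m ∧ ∀ x : Pt X.X, x.map f = z → LocalEq (logCan ω B) m g x

/-- The open subset `V` of `X` is a toric variety of dimension `d`: it is covered by affine toric
varieties with the same torus. -/
def Toric (V : X.X.Opens) (d : ℕ) : Prop :=
  ∃ y : Fin d → X.K, Independent y ∧ ∀ x : Pt X.X, x.In V → ∃ U ≤ V, IsAffineOpen U ∧ x.In U ∧
    ToricRing y (regOn U)

end Vale.Agent.P283R.Sl
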