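import Vale.Agent.P283R.Sl.Br
import Vale.Agent.P283R.Sl.Cl
import Vale.Agent.P283R.StmE
import Vale.Agent.P283R.To.Stm

/-!
# The union of the classes in the short words
-/

open CategoryTheory AlgebraicGeometry

noncomputable section

namespace Vale.Agent.P283R.Sl

open Var

section

variable {K : Type} [Field K] [Algebra ℂ K] {c : ℕ} {S : Type} [CommRing S] [Algebra ℂ S]
  {A : Set K}

theorem IsQuot.o {I : Ideal S} {G : Subgroup (S ≃ₐ[ℂ] S)} {i : K →ₐ[ℂ] FractionRing (S ⧸ I)}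
    (h : IsQuot c A I G i) : Stm.IsQuot c A I G i :=
  ⟨h.domain, h.smooth, h.prime, h.ci, h.normal, h.finite, h.stable, h.free, h.inv⟩

theorem Quot.o (h : Quot c A S) : Stm.Quot c A S := by
  obtain ⟨I, G, i, h⟩ := h
  exact ⟨I, G, i, h.o⟩

theorem QuotCut.o {q r : ℕ} {a : K} (h : QuotCut c q r A a S) : Stm.QuotCut c q r A a S := by
  obtain ⟨I, G, i, h, h'⟩ := h
  exact ⟨I, G, i, h.o, h'⟩

end

variable {X Z : Var} {d c q : ℕ}

theorem Lciq.o {z : Pt Z.X} (h : Lciq c Z z) : Stm.Lciq c Z.o z := by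
  obtain ⟨U, S, _, _, a, b, h⟩ := h
  exact ⟨U, S, _, _, a, b, h.o⟩

theorem LciqCut.o {z : Pt Z.X} {D : Z.PrimeDiv → ℚ} (h : LciqCut c q Z z D) :
    Stm.LciqCut c q Z.o z D := by
  obtain ⟨U, r, a, S, _, _, h1, h2, h3, h4, h⟩ := h
  exact ⟨U, r, a, S, _, _, h1, h2, h3, h4, h.o⟩

theorem QuotSing.o {z : Pt Z.X} (h : QuotSing Z z) : Stm.EtQ 0 Z.o z := by
  obtain ⟨W, e, w, a, h⟩ := h
  exact ⟨W.o, e, w, a, h.o⟩

theorem LciqSing.o {z : Pt Z.X} {D : Z.PrimeDiv → ℚ} (h : LciqSing q Z z D) :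
    ∃ c, Stm.EtCut c q Z.o z D := by
  obtain ⟨c, W, e, w, D', a, b, h⟩ := h
  exact ⟨c, W.o, e, w, D', a, b, h.o⟩

theorem Toric.o {V : X.X.Opens} (h : Toric V d) : Tor.Toric (X := X.o) V d := h

theorem ord_pow {g : X.K} (hg : g ≠ 0) (y : X.PrimeDiv) (k : ℕ) : ord (g ^ k) y = k * ord g y := by
  induction k with
  | zero =>
    have h : ord (1 * 1 : X.K) y = ord (1 : X.K) y + ord (1 : X.K) y :=
      Scheme.ord_mul one_ne_zero one_ne_zero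
    rw [mul_one] at h
    rw [pow_zero]
    omega
  | succ k ih =>
    have h : ord (g ^ k * g) y = ord (g ^ k) y + ord g y := Scheme.ord_mul (pow_ne_zero k hg) hg
    rw [pow_succ, h, ih]
    push_cast
    ring

theorem LocalEq.pow {D : X.PrimeDiv → ℚ} {m : ℕ} {g : X.K} {x : Pt X.X} (h : LocalEq D m g x)
    (k : ℕ) : LocalEq D (k * m) (g ^ k) x :=
  ⟨pow_ne_zero k h.1, fun y hy => by
    rw [ord_pow h.1]
    push_cast
    rw [h.2 y hy, mul_assoc]⟩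

theorem HasKltComplement.of_dvd {f : X.X ⟶ Z.X} {ω : X.Form d} {B : X.QDiv} {n N : ℕ}
    {z : Pt Z.X} (h : HasKltComplement f ω B n z) (hn : n ∣ N) : HasKltComplement f ω B N z := by
  obtain ⟨k, rfl⟩ := hn
  obtain ⟨U, Λ, φ, a, b, c, e⟩ := h
  exact ⟨U, Λ, φ ^ k, a, b, c, fun x hx => mul_comm k n ▸ LocalEq.pow (e x hx) k⟩

/-- bounded klt complements for the data which satisfy `C` -/
def On (C : ∀ (d : ℕ) (X Z : Var), (X.X ⟶ Z.X) → X.Form d → X.QDiv → Pt Z.X → Prop) : Prop :=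
  ∀ d : ℕ, 1 ≤ d → ∀ ε : ℝ, 0 < ε → ∀ R : Finset ℚ, (∀ r ∈ R, 0 ≤ r ∧ r ≤ 1) →
    ∃ n : ℕ, 1 ≤ n ∧ ∀ (X Z : Var) (f : X.X ⟶ Z.X) (ω : X.Form d) (B : X.QDiv)
      (z : Pt Z.X), dimension X.str = d → ω.Nonzero → Pair (ε ≤ ·) (all X.X) ω B →
      (∀ y, B.coeff y ≠ 0 → B.coeff y ∈ R) → Contraction f → z.Closed →
      C d X Z f ω B z → HasKltComplement f ω B n z

variable {C C' : ∀ (d : ℕ) (X Z : Var), (X.X ⟶ Z.X) → X.Form d → X.QDiv → Pt Z.X → Prop}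

theorem On.or (h : On C) (h' : On C') :
    On fun d X Z f ω B z => C d X Z f ω B z ∨ C' d X Z f ω B z := by
  intro d hd ε hε R hR
  obtain ⟨n, hn, H⟩ := h d hd ε hε R hR
  obtain ⟨n', hn', H'⟩ := h' d hd ε hε R hR
  refine ⟨n * n', Nat.mul_pos hn hn', fun X Z f ω B z a b c e s t u => ?_⟩
  rcases u with u | u
  · exact (H X Z f ω B z a b c e s t u).of_dvd (dvd_mul_right _ _)
  · exact (H' X Z f ω B z a b c e s t u).of_dvd (dvd_mul_left _ _)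

theorem On.mono (h : On C) (i : ∀ d X Z f ω B z, C' d X Z f ω B z → C d X Z f ω B z) : On C' := by
  intro d hd ε hε R hR
  obtain ⟨n, hn, H⟩ := h d hd ε hε R hR
  exact ⟨n, hn, fun X Z f ω B z a b c e s t u => H X Z f ω B z a b c e s t (i _ _ _ _ _ _ _ u)⟩

theorem on_tor (h : Tor.QT) : On fun d X Z f ω B z => FanoType f ω ∧ NefOver f (-logCan ω B) ∧
    ∃ V, IsAffineOpen V ∧ z.In V ∧ Toric (pre f V) d := by
  intro d hd ε hε R hR
  obtain ⟨n, hn, H⟩ := h d hd ε hε R hR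
  exact ⟨n, hn, fun X Z f ω B z a b c e s t u => (has_iff f ω B n z).2
    (H X.o Z.o f ω B z a b ((pair_iff _ _ ω B).1 c) e s ((fanoType_iff f ω).1 u.1)
      ((nefOver_iff f _).1 u.2.1) t u.2.2)⟩

theorem on_quot (h : Stm.QE (· = 0)) :
    On fun _ _ Z f ω B z => Crepant f ω B z ∧ QuotSing Z z := by
  intro d hd ε hε R hR
  obtain ⟨n, hn, H⟩ := h d hd ε hε R hR
  exact ⟨n, hn, fun X Z f ω B z a b c e s t u => (has_iff f ω B n z).2
    (H X.o Z.o f ω B z 0 a b ((pair_iff _ _ ω B).1 c) e s u.1.1 u.1.2 t rfl u.2.o)⟩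

theorem on_lciq (h : Stm.QEc fun _ => True) (hq : 1 ≤ q) :
    On fun _ _ Z f ω B z => Crepant f ω B z ∧ ∃ D, SameCoeff f B.coeff D ∧ LciqSing q Z z D := by
  intro d hd ε hε R hR
  obtain ⟨n, hn, H⟩ := h d q hd hq ε hε
  refine ⟨n, hn, fun X Z f ω B z a b c _ s t u => (has_iff f ω B n z).2 ?_⟩
  obtain ⟨u1, D, u2, u3⟩ := u
  obtain ⟨c', u3⟩ := u3.o
  exact H X.o Z.o f ω B z D c' a b ((pair_iff _ _ ω B).1 c) s u1.1 u1.2 t
    (fun E y hy => (u2 E y hy).symm) trivial u3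

/-- the union -/
theorem on_all (h1 : Tor.QT) (h2 : Stm.QE (· = 0)) (h3 : Stm.QEc fun _ => True) (hq : 1 ≤ q) :
    On fun d X Z f ω B z => (FanoType f ω ∧ NefOver f (-logCan ω B) ∧
        ∃ V, IsAffineOpen V ∧ z.In V ∧ Toric (pre f V) d) ∨
      (Crepant f ω B z ∧ (QuotSing Z z ∨ ∃ D, SameCoeff f B.coeff D ∧ LciqSing q Z z D)) :=
  ((on_tor h1).or ((on_quot h2).or (on_lciq h3 hq))).mono fun _ _ _ _ _ _ _ u =>
    u.imp_right fun u => u.2.imp (fun v => ⟨u.1, v⟩) fun v => ⟨u.1, v⟩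

end Vale.Agent.P283R.Sl
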