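import Vale.Agent.P283R.Sl.Gn

/-!
# Bounded klt complements: the number of generators of a ring of sections
-/

open CategoryTheory AlgebraicGeometry

namespace Vale.Agent.P283R.Sl

open Var

variable {X Z : Var} {d : ℕ}

/-- Over an affine neighbourhood `V` of `z` there are Weil divisors `D_1, …, D_k` on `X` such that
the ring `⊕ H⁰(f⁻¹ V, ∑ m_i D_i)` has at most `k + l` generators, `q (K_X + B)` is linearly
equivalent to an integral combination of the `D_i` whenever `q B` is integral, and so is `K_X`
unless `f` is birational. -/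
def Generated (l : ℕ) (f : X.X ⟶ Z.X) (ω : X.Form d) (B : X.QDiv) (z : Pt Z.X) : Prop :=
  ∃ (k N : ℕ) (V : Z.X.Opens) (D : Fin k → X.Div), N ≤ k + l ∧ IsAffineOpen V ∧ z.In V ∧
    GradedGen N (fun m => sections (pre f V) (comb D m)) ∧
    (∀ q : ℕ, (∀ E, ∃ m : ℤ, q * B.coeff E = m) →
      InSpan (pre f V) D fun E => q * logCan ω B E) ∧
    ((∃ p, IsPull f p) ∨ InSpan (pre f V) D (logCan ω 0))

end Vale.Agent.P283R.Sl
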