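import Vale.Agent.P283R.Sl.Cx

/-!
# Bounded klt complements: rings of sections with `N` generators
-/

open CategoryTheory AlgebraicGeometry

namespace Vale.Agent.P283R.Sl

open Var

/-- The graded ring `⊕ A_m t^m`, `m ∈ ℤ^k`, is generated by `N` homogeneous elements: it is the
image of the polynomial ring in `N` variables under a map `x_j ↦ s_j t^(a_j)`. -/
def GradedGen {K : Type} [Field K] [Algebra ℂ K] {k : ℕ} (N : ℕ) (A : (Fin k → ℤ) → Set K) :
    Prop :=
  ∃ (s : Fin N → K) (a : Fin N → Fin k → ℤ) (π : Poly N →ₐ[ℂ] Laurent K k),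
    (∀ j, π (.X j) = .single (a j) (s j)) ∧ ∀ F, (∃ p, π p = F) ↔ ∀ m, F.coeff m ∈ A m

variable {X Z : Var} {d : ℕ}

/-- Over an affine neighbourhood `V` of `z` there are Weil divisors `D_1, …, D_k` on `X` such that
the ring `⊕ H⁰(f⁻¹ V, ∑ m_i D_i)` has `N` generators and `q (K_X + B)` is linearly equivalent to an
integral combination of the `D_i`. -/
def CoxGen (N q : ℕ) (f : X.X ⟶ Z.X) (ω : X.Form d) (B : X.QDiv) (z : Pt Z.X) : Prop :=
  ∃ (k : ℕ) (V : Z.X.Opens) (D : Fin k → X.Div), IsAffineOpen V ∧ z.In V ∧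
    GradedGen N (fun m => sections (pre f V) (comb D m)) ∧
    InSpan (pre f V) D fun E => q * logCan ω B E

/-- The same, and also `K_X` is linearly equivalent to an integral combination of the `D_i`. -/
def CoxGenK (N q : ℕ) (f : X.X ⟶ Z.X) (ω : X.Form d) (B : X.QDiv) (z : Pt Z.X) : Prop :=
  ∃ (k : ℕ) (V : Z.X.Opens) (D : Fin k → X.Div), IsAffineOpen V ∧ z.In V ∧
    GradedGen N (fun m => sections (pre f V) (comb D m)) ∧ InSpan (pre f V) D (logCan ω 0) ∧
    InSpan (pre f V) D fun E => q * B.coeff E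

end Vale.Agent.P283R.Sl
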