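import Mathlib.RingTheory.Ideal.Height
import Vale.Agent.P283R.Sl

/-!
# Bounded klt complements: rings of sections which are complete intersections
-/

open CategoryTheory AlgebraicGeometry

namespace Vale.Agent.P283R.Sl

open Var

/-- The Laurent polynomials in `k` variables `t`. -/
abbrev Laurent (K : Type) [Field K] (k : ℕ) : Type := AddMonoidAlgebra K (Fin k → ℤ)

/-- The polynomials in `N` variables `x`. -/
abbrev Poly (N : ℕ) : Type := MvPolynomial (Fin N) ℂ

/-- The graded ring `⊕ A_m t^m`, `m ∈ ℤ^k`, is a complete intersection: it is the image of a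
polynomial ring under a map `x_j ↦ s_j t^(a_j)` whose kernel has height `c` and `c` generators. -/
def GradedCI {K : Type} [Field K] [Algebra ℂ K] {k : ℕ} (A : (Fin k → ℤ) → Set K) : Prop :=
  ∃ (N c : ℕ) (s : Fin N → K) (a : Fin N → Fin k → ℤ) (g : Fin c → Poly N)
    (π : Poly N →ₐ[ℂ] Laurent K k), (∀ j, π (.X j) = .single (a j) (s j)) ∧
    (∀ F, (∃ p, π p = F) ↔ ∀ m, F.coeff m ∈ A m) ∧
    RingHom.ker π = Ideal.span (Set.range g) ∧ (RingHom.ker π).height = c

variable {X Z : Var} {d k : ℕ}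

/-- The Weil divisors. -/
abbrev Var.Div (X : Var) : Type := X.PrimeDiv →₀ ℤ

/-- The coefficients of the divisor `∑ m_i D_i`. -/
def comb (D : Fin k → X.Div) (m : Fin k → ℤ) (E : X.PrimeDiv) : ℤ := ∑ i, m i * D i E

/-- The sections `H⁰(W, G)` of the Weil divisor `G` over `W`. -/
def sections (W : X.X.Opens) (G : X.PrimeDiv → ℤ) : Set X.K :=
  {φ | φ ≠ 0 → ∀ E : X.PrimeDiv, E.1.In W → 0 ≤ ord φ E + G E}

/-- On `W` the divisor `G` is linearly equivalent to an integral combination of the `D_i`. -/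
def InSpan (W : X.X.Opens) (D : Fin k → X.Div) (G : X.PrimeDiv → ℚ) : Prop :=
  ∃ (m : Fin k → ℤ) (φ : X.K), φ ≠ 0 ∧
    ∀ E : X.PrimeDiv, E.1.In W → G E = (ord φ E + comb D m E : ℤ)

/-- Over an affine neighbourhood `V` of `z` there are Weil divisors `D_1, …, D_k` on `X` such that
the ring `⊕ H⁰(f⁻¹ V, ∑ m_i D_i)` is a complete intersection, and `K_X` and `q B` are linearly
equivalent to integral combinations of the `D_i`. -/
def CoxCI (k q : ℕ) (f : X.X ⟶ Z.X) (ω : X.Form d) (B : X.QDiv) (z : Pt Z.X) : Prop :=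
  ∃ (V : Z.X.Opens) (D : Fin k → X.Div), IsAffineOpen V ∧ z.In V ∧
    GradedCI (fun m => sections (pre f V) (comb D m)) ∧ InSpan (pre f V) D (logCan ω 0) ∧
    InSpan (pre f V) D fun E => q * B.coeff E

end Vale.Agent.P283R.Sl
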