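import Vale.Agent.P283R.Sl.Un
import Vale.Agent.P283R.Sl.Cx
import Vale.Agent.P283R.Cx.Stm

/-!
# The class of block CX in the short words
-/

open CategoryTheory AlgebraicGeometry

namespace Vale.Agent.P283R.Sl

open Var

theorem on_cox (h : Cox.QX) (k : ℕ) {q : ℕ} (hq : 1 ≤ q) :
    On fun _ _ _ f ω B z => FanoType f ω ∧ NefOver f (-logCan ω B) ∧ (∃ p, IsPull f p) ∧
      CoxCI k q f ω B z := by
  intro d hd ε hε R hR
  obtain ⟨n, hn, H⟩ := h d k q hd hq ε hε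
  exact ⟨n, hn, fun X Z f ω B z a b c _ s t u => (has_iff f ω B n z).2
    (H X.o Z.o f ω B z a b ((pair_iff _ _ ω B).1 c) s ((fanoType_iff f ω).1 u.1)
      ((nefOver_iff f _).1 u.2.1) t u.2.2.1 u.2.2.2)⟩

end Vale.Agent.P283R.Sl
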