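import Vale.Agent.P283R.Cx.Ga

/-!
# P283R: the index as a function of the number of generators
-/

open CategoryTheory AlgebraicGeometry

namespace Vale.Agent.P283R.Sl

open Var

/-- from a family of classes to one statement -/
theorem master {C : ℕ → ∀ (d : ℕ) (X Z : Var), (X.X ⟶ Z.X) → X.Form d → X.QDiv → Pt Z.X → Prop}
    (h : ∀ l, On fun d X Z f ω B z => FanoType f ω ∧ NefOver f (-logCan ω B) ∧ C l d X Z f ω B z)
    (hu : UN) (d : ℕ) (hd : 1 ≤ d) (ε : ℝ) (hε : 0 < ε) (R : Finset ℚ)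
    (hR : ∀ r ∈ R, 0 ≤ r ∧ r ≤ 1) :
    ∃ n : ℕ → ℕ, (∀ l, 1 ≤ n l) ∧ ∀ (X Z : Var) (f : X.X ⟶ Z.X) (ω : X.Form d) (B : X.QDiv)
      (z : Pt Z.X), dimension X.str = d → ω.Nonzero → Pair (ε ≤ ·) (all X.X) ω B →
      (∀ y, B.coeff y ≠ 0 → B.coeff y ∈ R) → Contraction f → FanoType f ω →
      NefOver f (-logCan ω B) → z.Closed →
      (∃ l, Generated l f ω B z) ∧ ∀ l, C l d X Z f ω B z → HasKltComplement f ω B (n l) z := by
  choose n n1 H using fun l => h l d hd ε hε R hR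
  exact ⟨n, n1, fun X Z f ω B z a b c e s u v t => ⟨gen_all hu hd X Z f ω B z a b s u t,
    fun l w => H l X Z f ω B z a b c e s t ⟨u, v, w⟩⟩⟩

end Vale.Agent.P283R.Sl
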