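import Vale.Agent.P283R.Sl.Em
import Vale.Agent.P283R.Sl.Cx

/-!
# Bounded klt complements: rings of sections with a cover of bounded embedding dimension
-/

open CategoryTheory AlgebraicGeometry

namespace Vale.Agent.P283R.Sl

open Var

/-- `A` is the ring of functions of a quotient `Y / G` as in `IsCover`, `Y = Spec S`, and there is
an action `θ` of the torus on `Y` which commutes with `G` and under which `τ` multiplies the
functions in `H m` by `τ ^ (e m)`. -/
def TorusCover (N : ℕ) {L : Type} [Field L] [Algebra ℂ L] {k : ℕ} (A : Set L)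
    (H : (Fin k → ℤ) → Set L) (S : Type) [CommRing S] [Algebra ℂ S] : Prop :=
  ∃ (e : ℕ) (G : Subgroup (S ≃ₐ[ℂ] S)) (i : L →ₐ[ℂ] FractionRing S)
    (θ : (Fin k → ℂˣ) →* (S ≃ₐ[ℂ] S)), 0 < e ∧ IsCover N A G i ∧
    (∀ τ, ∀ g ∈ G, θ τ * g = g * θ τ) ∧
    ∀ τ m, ∀ a ∈ H m, ∀ s, i a = algebraMap S _ s → θ τ s = (∏ j, τ j ^ (e * m j)) • s

/-- The same for subsets of a domain `P`, inside its field of fractions. -/
def TorusCoverIn (N : ℕ) {P : Type} [CommRing P] [IsDomain P] [Algebra ℂ P] {k : ℕ} (A : Set P)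
    (H : (Fin k → ℤ) → Set P) : Prop :=
  ∃ (S : Type) (_ : CommRing S) (_ : Algebra ℂ S), TorusCover N
    (algebraMap P (FractionRing P) '' A) (fun m => algebraMap P (FractionRing P) '' H m) S

/-- The graded ring `⊕ A_m t^m`, `m ∈ ℤ^k`, is such a quotient, the torus acts by the grading. -/
def GradedCover (N : ℕ) {K : Type} [Field K] [Algebra ℂ K] {k : ℕ} (A : (Fin k → ℤ) → Set K) :
    Prop :=
  TorusCoverIn N {F : Laurent K k | ∀ m, F.coeff m ∈ A m} fun m => Set.range (.single m)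

variable {X Z : Var} {d : ℕ}

/-- Over an affine neighbourhood `V` of `z` there are Weil divisors `D_1, …, D_k` on `X`, `k ≤ N`,
such that the ring `⊕ H⁰(f⁻¹ V, ∑ m_i D_i)` is such a quotient, and `q (K_X + B)` is linearly
equivalent to an integral combination of the `D_i`. -/
def CoxCover (N q : ℕ) (f : X.X ⟶ Z.X) (ω : X.Form d) (B : X.QDiv) (z : Pt Z.X) : Prop :=
  ∃ (k : ℕ) (V : Z.X.Opens) (D : Fin k → X.Div), k ≤ N ∧ IsAffineOpen V ∧ z.In V ∧
    GradedCover N (fun m => sections (pre f V) (comb D m)) ∧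
    InSpan (pre f V) D fun E => q * logCan ω B E

end Vale.Agent.P283R.Sl
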