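import Vale.Agent.P283R.Sl.Cl

/-!
# Bounded klt complements: covers of bounded embedding dimension
-/

open CategoryTheory AlgebraicGeometry

namespace Vale.Agent.P283R.Sl

open Var

section

variable {K : Type} [Field K] [Algebra ℂ K]

/-- `Y = Spec S` is a normal affine variety whose Zariski tangent spaces at closed points have
dimension at most `N`, `G` is a finite group of automorphisms of `Y` which acts freely in
codimension one, and `i` identifies `A` with the invariant functions on `Y`. -/
structure IsCover (N : ℕ) {S : Type} [CommRing S] [Algebra ℂ S] (A : Set K)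
    (G : Subgroup (S ≃ₐ[ℂ] S)) (i : K →ₐ[ℂ] FractionRing S) : Prop where
  domain : IsDomain S
  finiteType : Algebra.FiniteType ℂ S
  normal : IsIntegrallyClosed S
  embdim : ∀ m : Ideal S, m.IsMaximal → ∃ z : Fin N → S, m = Ideal.span (Set.range z) ⊔ m ^ 2
  finite : Finite G
  free : ∀ g ∈ G, g ≠ 1 → ∀ p : Ideal S, p.IsPrime → (∀ s, g s - s ∈ p) → 2 ≤ p.height
  inv : ∀ b, (∃ a ∈ A, i a = b) ↔ ∃ s : S, (∀ g ∈ G, g s = s) ∧ algebraMap S _ s = b

/-- `A` is the ring of functions of a quotient `Y / G` as in `IsCover`, `Y = Spec S`, and `a ^ q`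
is a unit times the `r`-th power of a rational function `s` on `Y`: `(q / r) div a = div s`. -/
def CoverCut (N q r : ℕ) (A : Set K) (a : K) (S : Type) [CommRing S] [Algebra ℂ S] : Prop :=
  ∃ G i, IsCover N (S := S) A G i ∧
    ∃ (s : FractionRing S) (u : Sˣ), i a ^ q = algebraMap S _ u * s ^ r

end

/-- Étale locally at `z`, `Z` (of dimension `d`) is a quotient `Y / G` with `Y` of embedding
dimension at most `N`, and the pull back of `q (K + D)` to `Y` is the divisor of a rational
function; `K` is the divisor of a form `η`, and `r (K + D) = div a`. -/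
def EmbSing (d N q : ℕ) (Z : Var) (z : Pt Z.X) (D : Z.PrimeDiv → ℚ) : Prop :=
  ∃ (W : Var) (e : W.X ⟶ Z.X) (w : Pt W.X) (D' : W.PrimeDiv → ℚ) (η : W.Form d) (U : W.X.Opens)
    (r : ℕ) (a : W.K) (S : Type) (_ : CommRing S) (_ : Algebra ℂ S), EtNb e w z ∧
    SameCoeff e D' D ∧ η.Nonzero ∧ IsAffineOpen U ∧ w.In U ∧ 0 < r ∧
    LocalEq (logCan η 0 + D') r a w ∧ CoverCut N q r (regOn U) a S

end Vale.Agent.P283R.Sl
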