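import Vale.Agent.P283R.Sl.Cl

/-!
# Bounded klt complements: étale base change
-/

open CategoryTheory AlgebraicGeometry

namespace Vale.Agent.P283R.Sl

open Var

variable {W X Y Z : Var} {d : ℕ}

/-- `g : Y → W` is the base change of `f : X → Z` along `e : W → Z`, with the projection
`π : Y → X`. -/
def BaseChange (f : X.X ⟶ Z.X) (e : W.X ⟶ Z.X) (g : Y.X ⟶ W.X) (π : Y.X ⟶ X.X) : Prop :=
  IsPullback π g f e ∧ π ≫ X.str = Y.str

/-- For some étale neighbourhood `(W, w)` of `z`, the base change `g : Y → W` of `f` with the pull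
back `B'` of `B` satisfies `C` at `w`. -/
def EtLocal (C : ∀ Y W : Var, (Y.X ⟶ W.X) → Y.Form d → Y.QDiv → Pt W.X → Prop)
    (f : X.X ⟶ Z.X) (B : X.QDiv) (z : Pt Z.X) : Prop :=
  ∃ (Y W : Var) (g : Y.X ⟶ W.X) (π : Y.X ⟶ X.X) (e : W.X ⟶ Z.X) (w : Pt W.X) (ω' : Y.Form d)
    (B' : Y.QDiv), EtNb e w z ∧ BaseChange f e g π ∧ ω'.Nonzero ∧ SameCoeff π B'.coeff B.coeff ∧
      C Y W g ω' B' w

end Vale.Agent.P283R.Sl
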