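import Vale.Agent.P283R.Sl.Ma
import Vale.Agent.P283R.Cx.Gv
import Vale.Agent.P283R.Be2.All
import Vale.Agent.P283R.Hw.All
import Vale.Agent.P283R.Bh.Bir
import Vale.Agent.P283R.Bc.On
import Vale.Agent.P283R.Eb.On

/-!
# P283R: bounded klt complements for rings of sections with few generators
-/

open CategoryTheory AlgebraicGeometry

namespace Vale.Agent.P283R.Sl

open Var

theorem on_gen' (l : ℕ) :
    On fun _ _ _ f ω B z => FanoType f ω ∧ NefOver f (-logCan ω B) ∧ Generated l f ω B z :=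
  on_any (Bh.qh Be2.abe) (Bh.qhF (Bh.vg_of Be2.abp) Hw.hg) l

theorem on_gen_cov (l : ℕ) :
    On fun d _ _ f ω B z => FanoType f ω ∧ NefOver f (-logCan ω B) ∧ (Generated l f ω B z ∨
      Covered l (fun Y _ g (ω' : Y.Form d) B' w =>
        FanoType g ω' ∧ NefOver g (-logCan ω' B') ∧ Generated l g ω' B' w) f B z) :=
  ((on_gen' l).or (on_cov (on_gen' l) l)).mono fun _ _ _ _ _ _ _ u =>
    u.2.2.imp_left fun v => ⟨u.1, u.2.1, v⟩

theorem on_gen_et (l : ℕ) :
    On fun d _ _ f ω B z => FanoType f ω ∧ NefOver f (-logCan ω B) ∧ (Generated l f ω B z ∨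
      EtLocal (fun Y₁ _ f₁ (_ : Y₁.Form d) B₁ z₁ => Covered l (fun Y _ g (ω' : Y.Form d) B' w =>
        FanoType g ω' ∧ NefOver g (-logCan ω' B') ∧ Generated l g ω' B' w) f₁ B₁ z₁) f B z) :=
  ((on_gen' l).or (on_et (on_cov (on_gen' l) l))).mono fun _ _ _ _ _ _ _ u =>
    u.2.2.imp_left fun v => ⟨u.1, u.2.1, v⟩

end Vale.Agent.P283R.Sl
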