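import Vale.Agent.P283R.Sl
import Vale.Agent.P283M.Stm

/-!
# The short words agree with the words of `P283M.Stm`
-/

open CategoryTheory AlgebraicGeometry

noncomputable section

namespace Vale.Agent.P283R.Sl

open Var

/-- the variety in the old words -/
abbrev Var.o (V : Var) : P283M.Stm.Var :=
  { X := V.X, str := V.str, integral := V.integral, normal := V.normal, qproj := V.qproj }

/-- the variety in the new words -/
abbrev nw (V : P283M.Stm.Var) : Var :=
  { X := V.X, str := V.str, integral := V.integral, normal := V.normal, qproj := V.qproj }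

variable {X Z : Var} {d : ℕ}

/-- the model in the old words -/
def Model.o (M : Model X) : P283M.Stm.Model X.o :=
  { Y := M.Y.o, π := M.π, over := M.over, smooth := M.smooth, pull := M.pull,
    pull_eq := M.pull_eq }

/-- the model in the new words -/
def Model.nw (M : P283M.Stm.Model X.o) : Model X :=
  { Y := Sl.nw M.Y, π := M.π, over := M.over, smooth := M.smooth, pull := M.pull,
    pull_eq := M.pull_eq }

/-- the curve in the new words -/
def Curve.nw (C : P283M.Stm.Curve X.o) : Curve X :=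
  { C := C.C, ι := C.ι, integral := C.integral, closed := C.closed, dim_one := C.dim_one }

/-- the curve in the old words -/
def Curve.o (C : Curve X) : P283M.Stm.Curve X.o :=
  { C := C.C, ι := C.ι, integral := C.integral, closed := C.closed, dim_one := C.dim_one }

theorem logCan_eq (ω : X.Form d) (B : X.QDiv) :
    logCan ω B = P283M.Stm.Var.logCan (V := X.o) ω B := rfl

theorem localEq_iff (D : X.PrimeDiv → ℚ) (m : ℕ) (g : X.K) (x : Pt X.X) :
    LocalEq D m g x ↔ P283M.Stm.Var.LocalEq (V := X.o) D m g x := Iff.rfl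

theorem regOn_eq (U : X.X.Opens) :
    regOn U = {a : X.o.K | ∀ x ∈ U, P283M.Stm.Var.RegAt (V := X.o) a x} := rfl

theorem pair_iff (p : ℝ → Prop) (W : X.X.Opens) (ω : X.Form d) (B : X.QDiv) :
    Pair p W ω B ↔ P283M.Stm.Pair (X := X.o) p W ω B :=
  ⟨fun h => ⟨h.1, h.2.1, fun M => h.2.2 (Model.nw M)⟩, fun h => ⟨h.1, h.2.1, fun M => h.2.2 M.o⟩⟩

theorem contraction_iff (f : X.X ⟶ Z.X) :
    Contraction f ↔ P283M.Stm.Contraction (X := X.o) (Z := Z.o) f := Iff.rfl

theorem nefOver_iff (f : X.X ⟶ Z.X) (D : X.PrimeDiv → ℚ) :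
    NefOver f D ↔ P283M.Stm.NefOver (X := X.o) (Z := Z.o) f D :=
  ⟨fun h C => h (Curve.nw C), fun h C => h C.o⟩

theorem ampleOver_iff (f : X.X ⟶ Z.X) (D : X.PrimeDiv → ℚ) :
    AmpleOver f D ↔ P283M.Stm.AmpleOver (X := X.o) (Z := Z.o) f D := Iff.rfl

theorem fanoType_iff (f : X.X ⟶ Z.X) (ω : X.Form d) :
    FanoType f ω ↔ P283M.Stm.FanoType (X := X.o) (Z := Z.o) f ω :=
  exists_congr fun C => and_congr (pair_iff _ _ ω C) Iff.rfl

theorem has_iff (f : X.X ⟶ Z.X) (ω : X.Form d) (B : X.QDiv) (n : ℕ) (z : Pt Z.X) :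
    HasKltComplement f ω B n z ↔
      P283M.Stm.HasKltComplement (X := X.o) (Z := Z.o) f ω B n z :=
  exists_congr fun _ => exists_congr fun Λ => exists_congr fun _ =>
    and_congr Iff.rfl (and_congr Iff.rfl (and_congr (pair_iff _ _ ω Λ) Iff.rfl))

theorem dimension_eq (X : Var) : dimension X.str = P289.dimension X.o.str := rfl

/-- the whole conjecture in the new words is the whole conjecture in the old words -/
theorem q1_of (h : P283M.Stm.Q1) : Q1On fun _ _ _ _ _ _ _ => True := by
  intro d hd ε hε R hR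
  obtain ⟨n, hn, H⟩ := h d hd ε hε R hR
  exact ⟨n, hn, fun X Z f ω B z a b c e s t u v _ => (has_iff f ω B n z).2
    (H X.o Z.o f ω B z a b ((pair_iff _ _ ω B).1 c) e s ((fanoType_iff f ω).1 t)
      ((nefOver_iff f _).1 u) v)⟩

end Vale.Agent.P283R.Sl
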