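import Vale.Agent.P283R.Sl

/-!
# Bounded klt complements: towers of conic fibrations
-/

open CategoryTheory AlgebraicGeometry

namespace Vale.Agent.P283R.Sl

open Var

/-- `F'` is the function field of a smooth conic `s ^ 2 - a t ^ 2 = b` over `F`. -/
def Conic {K : Type} [Field K] (F F' : Subfield K) : Prop :=
  ∃ s t a b : K, a ∈ F ∧ b ∈ F ∧ a ≠ 0 ∧ b ≠ 0 ∧ s ^ 2 - a * t ^ 2 = b ∧ Transcendental F t ∧
    F' = Subfield.closure ((F : Set K) ∪ {s, t})

variable {X Y : Var} {d : ℕ}

/-- `F'` is the function field of a conic over `F`, and every closed point of the conic (a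
valuation ring of `F'` which contains `F`) is dominated by a prime divisor of `X`. -/
def ConicStep (X : Var) (F F' : Subfield X.K) : Prop :=
  Conic F F' ∧ ∀ O : ValuationSubring X.K, (∀ a ∈ F, a ∈ O) → (∃ a ∈ F', a ∉ O) →
    ∃ E : X.PrimeDiv, ∀ a ∈ F', a ∈ O ↔ RegAt a E.1

/-- The function field of `X` is reached from the function field of `Y` by such steps. -/
def ConicTower (g : X.X ⟶ Y.X) : Prop :=
  ∃ p : Y.K →+* X.K, (∀ (x : Pt X.X) (a : St Y.X (x.map g)), p (toRat a) = toRat (comap g x a)) ∧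
    Relation.ReflTransGen (ConicStep X) p.fieldRange ⊤

/-- `K_X + B` is `ℚ`-linearly trivial over `Y`. -/
def TrivialOver (g : X.X ⟶ Y.X) (ω : X.Form d) (B : X.QDiv) : Prop :=
  ∀ y : Pt Y.X, ∃ m a, 0 < m ∧ ∀ x : Pt X.X, x.map g = y → LocalEq (logCan ω B) m a x

end Vale.Agent.P283R.Sl
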