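import Vale.Agent.P283R.Sl

/-!
# Bounded klt complements: chains of fibrations in curves
-/

open CategoryTheory AlgebraicGeometry

namespace Vale.Agent.P283R.Sl

/-- `g` is a composition of contractions of Fano type of relative dimension at most one. -/
inductive CurveChain : ∀ {X Y : Var}, (X.X ⟶ Y.X) → Prop
  | one {X Y : Var} {d : ℕ} {g : X.X ⟶ Y.X} (ω : X.Form d) : dimension X.str = d → ω.Nonzero →
      Contraction g → FanoType g ω → d ≤ dimension Y.str + 1 → CurveChain g
  | comp {X Y W : Var} {g : X.X ⟶ Y.X} {h : Y.X ⟶ W.X} : CurveChain g → CurveChain h →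
      CurveChain (g ≫ h)

end Vale.Agent.P283R.Sl
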