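import Vale.Agent.P283R.Sl.Cf

/-!
# Bounded klt complements: towers of conic fibrations over a base
-/

open CategoryTheory AlgebraicGeometry

namespace Vale.Agent.P283R.Sl

open Var

variable {X Z : Var} {d : ℕ}

/-- `f` is the composition of contractions `g : X → Y` and `h : Y → Z`, `dim Y = e ≥ 1`, where `g`
is a tower of conics, `K_X + B` is `ℚ`-linearly trivial over `Y`, and `h` satisfies `C`; `η` is a
rational form on `Y`. -/
def OverConics (C : ∀ (e : ℕ) (Y : Var), (Y.X ⟶ Z.X) → Y.Form e → Prop) (f : X.X ⟶ Z.X)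
    (ω : X.Form d) (B : X.QDiv) : Prop :=
  ∃ (e : ℕ) (Y : Var) (g : X.X ⟶ Y.X) (h : Y.X ⟶ Z.X) (η : Y.Form e), 1 ≤ e ∧
    dimension Y.str = e ∧ η.Nonzero ∧ g ≫ h = f ∧ Contraction g ∧ Contraction h ∧ ConicTower g ∧
    TrivialOver g ω B ∧ C e Y h η

end Vale.Agent.P283R.Sl
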