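import Vale.Agent.P283R.Sl.Cl
import Vale.Agent.P283R.Sl.Cx

/-!
# Bounded klt complements: rings of sections which are quotients of complete intersections
-/

open CategoryTheory AlgebraicGeometry

namespace Vale.Agent.P283R.Sl

open Var

/-- `A` is the ring of functions of a quotient `Y / G` with `Y` in `Spec S`, and there is an action
`θ` of the torus on `Spec S` which preserves `Y`, commutes with `G`, and under which `τ` multiplies
the functions in `H m` by `τ ^ (e m)`. -/
def TorusQuot {L : Type} [Field L] [Algebra ℂ L] {k : ℕ} (A : Set L) (H : (Fin k → ℤ) → Set L)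
    (S : Type) [CommRing S] [Algebra ℂ S] : Prop :=
  ∃ (c e : ℕ) (I : Ideal S) (G : Subgroup (S ≃ₐ[ℂ] S)) (i : L →ₐ[ℂ] FractionRing (S ⧸ I))
    (θ : (Fin k → ℂˣ) →* (S ≃ₐ[ℂ] S)), 0 < e ∧ IsQuot c A I G i ∧
    (∀ τ, ∀ g ∈ G, θ τ * g = g * θ τ) ∧ (∀ τ, ∀ s ∈ I, θ τ s ∈ I) ∧
    ∀ τ m, ∀ a ∈ H m, ∀ s, i a = algebraMap (S ⧸ I) _ (Ideal.Quotient.mk I s) →
      θ τ s - (∏ j, τ j ^ (e * m j)) • s ∈ I

/-- The same for subsets of a domain `P`, inside its field of fractions. -/
def TorusQuotIn {P : Type} [CommRing P] [IsDomain P] [Algebra ℂ P] {k : ℕ} (A : Set P)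
    (H : (Fin k → ℤ) → Set P) : Prop :=
  ∃ (S : Type) (_ : CommRing S) (_ : Algebra ℂ S),
    TorusQuot (algebraMap P (FractionRing P) '' A) (fun m => algebraMap P (FractionRing P) '' H m) S

/-- The graded ring `⊕ A_m t^m`, `m ∈ ℤ^k`, is such a quotient, the torus acts by the grading. -/
def GradedQuo {K : Type} [Field K] [Algebra ℂ K] {k : ℕ} (A : (Fin k → ℤ) → Set K) : Prop :=
  TorusQuotIn {F : Laurent K k | ∀ m, F.coeff m ∈ A m} fun m => Set.range (.single m)

variable {X Z : Var} {d : ℕ}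

/-- Over an affine neighbourhood `V` of `z` there are Weil divisors `D_1, …, D_k` on `X` such that
the ring `⊕ H⁰(f⁻¹ V, ∑ m_i D_i)` is such a quotient, and `K_X` and `q B` are linearly equivalent to
integral combinations of the `D_i`. -/
def CoxQuo (k q : ℕ) (f : X.X ⟶ Z.X) (ω : X.Form d) (B : X.QDiv) (z : Pt Z.X) : Prop :=
  ∃ (V : Z.X.Opens) (D : Fin k → X.Div), IsAffineOpen V ∧ z.In V ∧
    GradedQuo (fun m => sections (pre f V) (comb D m)) ∧ InSpan (pre f V) D (logCan ω 0) ∧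
    InSpan (pre f V) D fun E => q * B.coeff E

end Vale.Agent.P283R.Sl
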