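import Vale.Agent.P283R.Sl.Cg
import Vale.Agent.P283R.Sl.Cg2

/-!
# The short form of the graded quotients is the long form
-/

open CategoryTheory AlgebraicGeometry

namespace Vale.Agent.P283R.Sl

open Var

theorem gradedQuo_iff {K : Type} [Field K] [Algebra ℂ K] {k : ℕ} (A : (Fin k → ℤ) → Set K) :
    GradedQuo A ↔ GradedQuot A :=
  ⟨fun ⟨S, a, b, c, e, I, G, i, θ, h1, h2, h3, h4, h5⟩ =>
    ⟨c, e, S, a, b, I, G, i, θ, h1, h2, h3, h4, fun τ m φ s h =>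
      h5 τ m _ ⟨_, ⟨φ, rfl⟩, rfl⟩ s h⟩,
   fun ⟨c, e, S, a, b, I, G, i, θ, h1, h2, h3, h4, h5⟩ =>
    ⟨S, a, b, c, e, I, G, i, θ, h1, h2, h3, h4, fun τ m _ ⟨_, ⟨φ, u⟩, v⟩ s h =>
      h5 τ m φ s (by subst u v; exact h)⟩⟩

theorem coxQuo_iff {X Z : Var} {d : ℕ} (k q : ℕ) (f : X.X ⟶ Z.X) (ω : X.Form d) (B : X.QDiv)
    (z : Pt Z.X) : CoxQuo k q f ω B z ↔ CoxQuot k q f ω B z := by
  simp only [CoxQuo, CoxQuot, gradedQuo_iff]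

end Vale.Agent.P283R.Sl
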