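import Vale.Agent.P283R.Sl.Un2
import Vale.Agent.P283R.Cg.All
import Vale.Agent.P283R.Pu.All
import Vale.Agent.P283R.To.GlAll
import Vale.Agent.P283R.Cy.All
import Vale.Agent.P283R.Cx.Adz
import Vale.Agent.P283R.Cx.Z1
import Vale.Agent.P283R.Eb.On

/-!
# P283R: unions of classes under the hypotheses of the conjecture
-/

open CategoryTheory AlgebraicGeometry

namespace Vale.Agent.P283R.Sl

open Var

variable {C C' : ∀ (d : ℕ) (X Z : Var), (X.X ⟶ Z.X) → X.Form d → X.QDiv → Pt Z.X → Prop}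

/-- bounded klt complements for the data of Fano type with `-(K + B)` nef which satisfy `C` -/
abbrev OnN (C : ∀ (d : ℕ) (X Z : Var), (X.X ⟶ Z.X) → X.Form d → X.QDiv → Pt Z.X → Prop) : Prop :=
  On fun d X Z f ω B z => FanoType f ω ∧ NefOver f (-logCan ω B) ∧ C d X Z f ω B z

theorem OnN.or (h : OnN C) (h' : OnN C') :
    OnN fun d X Z f ω B z => C d X Z f ω B z ∨ C' d X Z f ω B z :=
  (On.or h h').mono fun _ _ _ _ _ _ _ u =>
    u.2.2.imp (fun v => ⟨u.1, u.2.1, v⟩) fun v => ⟨u.1, u.2.1, v⟩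

theorem OnN.mono (h : OnN C) (i : ∀ d X Z f ω B z, C' d X Z f ω B z → C d X Z f ω B z) :
    OnN C' :=
  On.mono h fun _ _ _ _ _ _ _ u => ⟨u.1, u.2.1, i _ _ _ _ _ _ _ u.2.2⟩

theorem OnN.et (h : OnN C) : OnN fun d _ _ f _ B z => EtLocal (C d) f B z := on_et' h

variable {q : ℕ}

theorem onN_tor : OnN fun d _ _ f _ _ z => ∃ V, z.In V ∧ Toric (pre f V) d := on_gl Gl.sum

theorem onN_bir (hq : 1 ≤ q) (l : ℕ) : OnN fun _ _ _ f ω B z => (∃ p, IsPull f p) ∧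
    ∃ k c, min k c ≤ l ∧ CoxCIc k c q f ω B z :=
  on_minX Cx.ext Cx.aff Cx.qxU Cy.qz hq l

theorem onN_quo (hq : 1 ≤ q) (l : ℕ) : OnN fun _ _ _ f ω B z => (∃ p, IsPull f p) ∧
    ∃ k ≤ l, CoxQuo k q f ω B z :=
  (On.le (fun k => on_quo k hq) l).mono fun _ _ _ _ _ _ _ ⟨a, b, c, k, e, u⟩ => ⟨k, e, a, b, c, u⟩

theorem onN_quo0 (hq : 1 ≤ q) (l : ℕ) : OnN fun _ _ _ f ω B z =>
    (∃ z', HasKltComplement f ω B q z') ∧ ∃ k ≤ l, CoxQuo k q f ω B z :=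
  (On.le (fun k => on_quo0 k hq hq) l).mono
    fun _ _ _ _ _ _ _ ⟨a, b, c, k, e, u⟩ => ⟨k, e, a, b, c, u⟩

theorem on_sing' (hq : 1 ≤ q) : On fun _ _ Z f ω B z =>
    Crepant f ω B z ∧ (LciqReg Z z ∨ ∃ D, SameCoeff f B.coeff D ∧ LciqSing q Z z D) :=
  (Pu.on.or (on_lciq Mi.stmE hq)).mono fun _ _ _ _ _ _ _ u =>
    u.2.imp (fun v => ⟨u.1, v⟩) fun v => ⟨u.1, v⟩

end Vale.Agent.P283R.Sl
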