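import Vale.Agent.P283R.Sl.Cq2

/-!
# Bounded klt complements: orbit spaces with many boundary divisors
-/

open CategoryTheory AlgebraicGeometry

namespace Vale.Agent.P283R.Sl

open Var

/-- There are finitely many prime divisors `F ∈ S` which generate the class group of `Y`, and `l`
functions `s` which are regular outside of `S`, such that the Cox ring is generated by the `s j` and
the canonical sections of the `F ∈ S` (every function `g` which is regular outside of `S` is a
combination of monomials in `s` of at least the orders of `g` along `S`), and the vectors of the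
orders of `s` along the `F ∈ S` lie in `l` planes. -/
def Planar (l : ℕ) (Y : Var) : Prop :=
  ∃ (S : Finset Y.PrimeDiv) (s : Fin l → Y.K) (u : Fin l → Fin 2 → Fin l → ℚ),
    (∀ G : Y.Div, ∃ g, g ≠ 0 ∧ ∀ F ∉ S, ord g F = G F) ∧
    (∀ j, s j ≠ 0 ∧ ∀ F ∉ S, 0 ≤ ord (s j) F) ∧
    (∀ g, (∀ F ∉ S, 0 ≤ ord g F) → g ∈ Submodule.span ℂ
      {x | (∃ w : Fin l → ℕ, x = ∏ j, s j ^ w j) ∧ ∀ F ∈ S, ord g F ≤ ord x F}) ∧
    ∀ F ∈ S, ∃ j, (fun i => (ord (s i) F : ℚ)) ∈ Submodule.span ℚ (Set.range (u j))

/-- The open subset `V` of `X` is covered by affine open subsets on which a torus acts: `y` are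
eigenfunctions, the invariant rational functions are the rational functions `φ c` on a variety `Y`
which is planar, and every prime divisor of `V` dominates `Y` or a prime divisor of `Y`. -/
def PlanarQuot (l : ℕ) {X : Var} (V : X.X.Opens) : Prop :=
  ∃ (Y : Var) (φ : Y.K → X.K) (r : ℕ) (y : Fin r → X.K),
    (∀ x : Pt X.X, x.In V → ∃ U ≤ V, IsAffineOpen U ∧ x.In U ∧ Graded φ y (regOn U)) ∧
    (∀ E : X.PrimeDiv, E.1.In V → (∀ c, ord (φ c) E = 0) ∨
      ∃ (F : Y.PrimeDiv) (μ : ℤ), ∀ c, ord (φ c) E = μ * ord c F) ∧ Planar l Y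

end Vale.Agent.P283R.Sl
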