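import Vale.Agent.P283R.Sl.Cl
import Vale.Agent.P283R.Sl.Cx

/-!
# Bounded klt complements: torus actions with the orbit space open in a projective space
-/

open CategoryTheory AlgebraicGeometry

namespace Vale.Agent.P283R.Sl

open Var

/-- `A` is spanned by its elements of the form `φ(s) y ^ m` with `φ` a rational function of
`s = (s_1, …, s_c)`. -/
def GradedOver {K : Type} [Field K] [Algebra ℂ K] {c r : ℕ} (s : Fin c → K) (y : Fin r → K)
    (A : Set K) : Prop :=
  ∀ a ∈ A, a ∈ Submodule.span ℂ {b ∈ A | ∃ φ ∈ IntermediateField.adjoin ℂ (Set.range s),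
    ∃ m : Fin r → ℤ, b = φ * ∏ i, y i ^ m i}

/-- The prime divisor `E` lies over the hypersurface `l = 0` of `ℙ^c` or dominates `ℙ^c`, under
the rational map `(1 : s_1 : … : s_c)`: the quotients of two forms of the same degree which are
not divisible by `l` are units along `E`. -/
def OverHypersurface {X : Var} {c : ℕ} (s : Fin c → X.K) (E : X.PrimeDiv) : Prop :=
  ∃ l : Poly (c + 1), Prime l ∧ ∀ (n : ℕ) (g h : Poly (c + 1)), g.IsHomogeneous n →
    h.IsHomogeneous n → ¬ l ∣ g → ¬ l ∣ h →
      ord (MvPolynomial.aeval (Fin.cons 1 s : Fin (c + 1) → X.K) g) E =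
        ord (MvPolynomial.aeval (Fin.cons 1 s : Fin (c + 1) → X.K) h) E

/-- The open subset `V` of `X` is covered by affine open subsets on which a torus acts: `y` are
eigenfunctions, the invariant rational functions form the field `ℂ(s)` of `ℙ^c`, and no prime
divisor of `V` is mapped to a subvariety of codimension at least two of `ℙ^c`. -/
def ProjectiveQuotient {X : Var} (V : X.X.Opens) : Prop :=
  ∃ (c r : ℕ) (s : Fin c → X.K) (y : Fin r → X.K),
    Independent (Fin.append s y : Fin (c + r) → X.K) ∧
    (∀ x : Pt X.X, x.In V → ∃ U ≤ V, IsAffineOpen U ∧ x.In U ∧ GradedOver s y (regOn U)) ∧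
    ∀ E : X.PrimeDiv, E.1.In V → OverHypersurface s E

end Vale.Agent.P283R.Sl
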