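import Vale.Agent.P283R.Sl.Gn

/-!
# Bounded klt complements: rings of sections of `k` divisors with `N` generators
-/

open CategoryTheory AlgebraicGeometry

namespace Vale.Agent.P283R.Sl

open Var

variable {X Z : Var} {d : ℕ}

/-- Over an affine neighbourhood `V` of `z` there are Weil divisors `D_1, …, D_k` on `X` such that
the ring `⊕ H⁰(f⁻¹ V, ∑ m_i D_i)` has `N` generators and `q (K_X + B)` is linearly equivalent to an
integral combination of the `D_i`. -/
def CoxGn (k N q : ℕ) (f : X.X ⟶ Z.X) (ω : X.Form d) (B : X.QDiv) (z : Pt Z.X) : Prop :=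
  ∃ (V : Z.X.Opens) (D : Fin k → X.Div), IsAffineOpen V ∧ z.In V ∧
    GradedGen N (fun m => sections (pre f V) (comb D m)) ∧
    InSpan (pre f V) D fun E => q * logCan ω B E

/-- The same, and `f` is birational or also `K_X` is linearly equivalent to an integral combination
of the `D_i`. -/
def CoxGf (k N q : ℕ) (f : X.X ⟶ Z.X) (ω : X.Form d) (B : X.QDiv) (z : Pt Z.X) : Prop :=
  ∃ (V : Z.X.Opens) (D : Fin k → X.Div), IsAffineOpen V ∧ z.In V ∧
    GradedGen N (fun m => sections (pre f V) (comb D m)) ∧
    InSpan (pre f V) D (fun E => q * logCan ω B E) ∧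
    ((∃ p, IsPull f p) ∨ InSpan (pre f V) D (logCan ω 0))

end Vale.Agent.P283R.Sl
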