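import Vale.Agent.P283R.Sl.Pq

/-!
# Bounded klt complements: quotients of toric varieties by finite groups, short words
-/

open CategoryTheory AlgebraicGeometry

namespace Vale.Agent.P283R.Sl

open Var

/-- `K` is the field of the invariants of a finite group of automorphisms of `L`. -/
def Invariants {L : Type} [Field L] [Algebra ℂ L] (K : Set L) : Prop :=
  ∃ G : Subgroup (L ≃ₐ[ℂ] L), Finite G ∧ K = IntermediateField.fixedField G

/-- `π : Y → X` is the quotient by a finite group which acts freely in codimension one. -/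
def FreeQuotient {X Y : Var} (π : Y.X ⟶ X.X) : Prop :=
  IsFinite π ∧ Surjective π ∧ π ≫ X.str = Y.str ∧
    Invariants {g | ∃ y a, g = toRat (comap π y a)} ∧
    ∀ E : Y.PrimeDiv, ∃ F : X.PrimeDiv, E.1.map π = F.1 ∧
      ∀ a, ord (toRat (comap π E.1 a)) E = ord (toRat a) F

/-- Over an affine neighbourhood `V` of `z` the variety `X` is a quotient `Y / G` of a toric
variety, and `z` lies under the fixed point of the torus: the monomials other than `1` which are
regular over `V` vanish on the fibre over `z`. -/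
def ToricCover {X Z : Var} (f : X.X ⟶ Z.X) (z : Pt Z.X) : Prop :=
  ∃ (Y : Var) (π : Y.X ⟶ X.X) (V : Z.X.Opens) (r : ℕ) (y : Fin r → Y.K), FreeQuotient π ∧
    IsAffineOpen V ∧ z.In V ∧ Independent y ∧
    (∀ x : Pt Y.X, x.In (pre (π ≫ f) V) → ∃ U ≤ pre (π ≫ f) V, IsAffineOpen U ∧ x.In U ∧
      GradedOver Fin.elim0 y (regOn U)) ∧
    ∀ m : Fin r → ℤ, m ≠ 0 → ∏ i, y i ^ m i ∈ regOn (pre (π ≫ f) V) → ∀ x : Pt Y.X,
      x.map (π ≫ f) = z → ¬ RegAt (∏ i, y i ^ m i)⁻¹ x

end Vale.Agent.P283R.Sl
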