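import Vale.Agent.P283R.Sl.Dg

/-!
# Bounded klt complements: the data which degenerate to a class
-/

open CategoryTheory AlgebraicGeometry

namespace Vale.Agent.P283R.Sl

open Var

/-- The hypotheses of the conjecture: `(X, B)` is an `ε`-lc pair of dimension `d ≥ 1` with the
coefficients in `R`, `f` is a contraction of Fano type, `-(K + B)` is nef over `Z`, and `z` is a
closed point. -/
def Datum (ε : ℝ) (R : Finset ℚ) {d : ℕ} {X Z : Var} (f : X.X ⟶ Z.X) (ω : X.Form d) (B : X.QDiv)
    (z : Pt Z.X) : Prop :=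
  1 ≤ d ∧ dimension X.str = d ∧ ω.Nonzero ∧ Pair (ε ≤ ·) (all X.X) ω B ∧
    (∀ y, B.coeff y ≠ 0 → B.coeff y ∈ R) ∧ Contraction f ∧ FanoType f ω ∧
    NefOver f (-logCan ω B) ∧ z.Closed

/-- `X` and `X'` are birational over `Z`, and `K_X + B` is at most the pull back of `K_X' + B'`
along every prime divisor `E` of `X`; `x'` is a point in the centre of `E` on `X'`. -/
def Below {d : ℕ} {X X' Z : Var} (f : X.X ⟶ Z.X) (B : X.QDiv) (f' : X'.X ⟶ Z.X) (ω' : X'.Form d)
    (B' : X'.QDiv) : Prop :=
  ∃ q : Iso X' X, (∀ (x : Pt X.X) (x' : Pt X'.X) (a : St Z.X (x.map f)) (a' : St Z.X (x'.map f')),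
      toRat a = toRat a' → q.app (toRat (comap f' x' a')) = toRat (comap f x a)) ∧
    ∀ (E : X.PrimeDiv) (x' : Pt X'.X) m g, (∀ a, RegAt a x' → RegAt (q.app a) E.1) →
      LocalEq (logCan ω' B') m g x' → m * (formOrd ω' q E + B.coeff E) ≤ ord (q.app g) E

/-- The least class which contains the `ε`-lc data of the class `C`, and which contains with the
fibre of a family `(F : T → S, D)` at a point `s` also the family at `s` and all data which occur
as fibres of the family at points arbitrarily close to `s`, and with a datum all birational models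
below it. -/
inductive Deformed (ε : ℝ) (R : Finset ℚ)
    (C : ∀ (d : ℕ) (X Z : Var), (X.X ⟶ Z.X) → X.Form d → X.QDiv → Pt Z.X → Prop) :
    ∀ (d : ℕ) (X Z : Var), (X.X ⟶ Z.X) → X.Form d → X.QDiv → Pt Z.X → Prop
  | base {d X Z f ω B z} : Datum ε R f ω B z → C d X Z f ω B z → Deformed ε R C d X Z f ω B z
  | total {d X Z f ω B z T S F Ω D s} (t : T.K) : Deformed ε R C d X Z f ω B z →
      Datum 0 R F Ω D s → FibreAt F t D s f B z → Deformed ε R C (d + 1) T S F Ω D s
  | near {d X Z f ω B z} {T S : Var} {F : T.X ⟶ S.X} {D s X' Z' f' ω' B' z'} (Ω : T.Form (d + 1))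
      (t : T.K) : Deformed ε R C d X Z f ω B z → Datum 0 R F Ω D s → FibreAt F t D s f B z →
      Datum 0 R f' ω' B' z' → (∀ U, s.In U → ∃ s', s'.In U ∧ FibreAt F t D s' f' B' z') →
      Deformed ε R C d X' Z' f' ω' B' z'
  | model {d X Z f ω B z X' f' ω' B'} : Deformed ε R C d X' Z f' ω' B' z → Datum 0 R f ω B z →
      Below f B f' ω' B' → Deformed ε R C d X Z f ω B z

end Vale.Agent.P283R.Sl
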