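import Vale.Agent.P283R.Sl.Dg2
import Vale.Agent.P283R.Sl.Bc
import Vale.Agent.P283R.Sl.Eb

/-!
# Bounded klt complements: the data which are reached from a class
-/

open CategoryTheory AlgebraicGeometry

namespace Vale.Agent.P283R.Sl

open Var

/-- The least classes `Reached ε R C k` of lc data such that: the `ε`-lc data of the class `C` lie
in them (`base`); with the fibre of a family `(F : T → S, D)` at a point `s` so do the family at `s`
(`total`) and the data which occur as fibres of the family at points arbitrarily close to `s`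
(`near`); with a datum so do the birational models below it (`model`); a datum lies in the class if
an étale base change does (`etale`); it lies in the class `k + J` if a crepant cover of degree at
most `J`, with the Stein factorization `Y → W → Z`, lies in the class `k` at all points over `z`
(`cover`). -/
inductive Reached (ε : ℝ) (R : Finset ℚ)
    (C : ∀ (d : ℕ) (X Z : Var), (X.X ⟶ Z.X) → X.Form d → X.QDiv → Pt Z.X → Prop) :
    ℕ → ∀ (d : ℕ) (X Z : Var), (X.X ⟶ Z.X) → X.Form d → X.QDiv → Pt Z.X → Prop
  | base {k d X Z f ω B z} : Datum ε R f ω B z → C d X Z f ω B z → Reached ε R C k d X Z f ω B z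
  | total {k d X Z f ω B z T S F Ω D s} (t : T.K) : Reached ε R C k d X Z f ω B z →
      Datum 0 R F Ω D s → FibreAt F t D s f B z → Reached ε R C k (d + 1) T S F Ω D s
  | near {k d X Z f ω B z} {T S : Var} {F : T.X ⟶ S.X} {D s X' Z' f' ω' B' z'}
      (Ω : T.Form (d + 1)) (t : T.K) : Reached ε R C k d X Z f ω B z → Datum 0 R F Ω D s →
      FibreAt F t D s f B z → Datum 0 R f' ω' B' z' →
      (∀ U, s.In U → ∃ s', s'.In U ∧ FibreAt F t D s' f' B' z') →
      Reached ε R C k d X' Z' f' ω' B' z'
  | model {k d X Z f ω B z X' f' ω' B'} : Reached ε R C k d X' Z f' ω' B' z →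
      Datum 0 R f ω B z → Below f B f' ω' B' → Reached ε R C k d X Z f ω B z
  | etale {k d X Z f ω B z Y W g ω' B' w} (π : Y.X ⟶ X.X) (e : W.X ⟶ Z.X) :
      Reached ε R C k d Y W g ω' B' w → Datum 0 R f ω B z → EtNb e w z → BaseChange f e g π →
      SameCoeff π B'.coeff B.coeff → Reached ε R C k d X Z f ω B z
  | cover {k d X Z f ω B z Y W g ω' B'} (J : ℕ) (π : Y.X ⟶ X.X) (e : W.X ⟶ Z.X) :
      (∀ w : Pt W.X, w.map e = z → Reached ε R C k d Y W g ω' B' w) → Datum 0 R f ω B z →
      CrepantCover J π B' B → IsFinite e → g ≫ e = π ≫ f → Reached ε R C (k + J) d X Z f ω B z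

end Vale.Agent.P283R.Sl
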