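import Vale.Agent.P283R.Sl.Dg2
import Vale.Agent.P283R.Sl.Eb

/-!
# Bounded klt complements: the data which are linked to a class
-/

open CategoryTheory AlgebraicGeometry

namespace Vale.Agent.P283R.Sl

open Var

/-- The least class of lc data such that: the `ε`-lc data of the class `C` lie in it (`base`); with
the fibre of a family `(F : T → S, D)` at a point `s` so do the family at `s` (`total`) and the data
which occur as fibres of the family at points arbitrarily close to `s` (`near`); with a datum so do
the birational models below it (`model`); a datum lies in the class if an étale base change does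
(`etale`). -/
inductive Linked (ε : ℝ) (R : Finset ℚ)
    (C : ∀ (d : ℕ) (X Z : Var), (X.X ⟶ Z.X) → X.Form d → X.QDiv → Pt Z.X → Prop) :
    ∀ (d : ℕ) (X Z : Var), (X.X ⟶ Z.X) → X.Form d → X.QDiv → Pt Z.X → Prop
  | base {d X Z f ω B z} : Datum ε R f ω B z → C d X Z f ω B z → Linked ε R C d X Z f ω B z
  | total {d X Z f ω B z T S F Ω D s} (t : T.K) : Linked ε R C d X Z f ω B z →
      Datum 0 R F Ω D s → FibreAt F t D s f B z → Linked ε R C (d + 1) T S F Ω D s
  | near {d X Z f ω B z} {T S : Var} {F : T.X ⟶ S.X} {D s X' Z' f' ω' B' z'}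
      (Ω : T.Form (d + 1)) (t : T.K) : Linked ε R C d X Z f ω B z → Datum 0 R F Ω D s →
      FibreAt F t D s f B z → Datum 0 R f' ω' B' z' →
      (∀ U, s.In U → ∃ s', s'.In U ∧ FibreAt F t D s' f' B' z') → Linked ε R C d X' Z' f' ω' B' z'
  | model {d X Z f ω B z X' f' ω' B'} : Linked ε R C d X' Z f' ω' B' z →
      Datum 0 R f ω B z → Below f B f' ω' B' → Linked ε R C d X Z f ω B z
  | etale {d X Z f ω B z Y W g ω' B' w} (π : Y.X ⟶ X.X) (e : W.X ⟶ Z.X) :
      Linked ε R C d Y W g ω' B' w → Datum 0 R f ω B z → EtNb e w z → BaseChange f e g π →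
      SameCoeff π B'.coeff B.coeff → Linked ε R C d X Z f ω B z

end Vale.Agent.P283R.Sl
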