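import Vale.Agent.P283R.Sl.Dg2

/-!
# Bounded klt complements: the neighbours in a family
-/

open CategoryTheory AlgebraicGeometry

namespace Vale.Agent.P283R.Sl

open Var

/-- `(X, B)` has a klt `n`-complement over `z`, and so have its neighbours: if the datum is the
fibre at `s` of a family `(F : T → S, D)`, then all fibres of the family at the points `s'` of some
open neighbourhood `U` of `s` have klt `n`-complements. -/
def Stable (R : Finset ℚ) (n : ℕ) {d : ℕ} {X Z : Var} (f : X.X ⟶ Z.X) (ω : X.Form d) (B : X.QDiv)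
    (z : Pt Z.X) : Prop :=
  HasKltComplement f ω B n z ∧ ∀ (T S : Var) (F : T.X ⟶ S.X) (Ω : T.Form (d + 1)) D t s,
    Datum 0 R F Ω D s → FibreAt F t D s f B z → ∃ U, s.In U ∧
      ∀ (X' Z' : Var) (f' : X'.X ⟶ Z'.X) (ω' : X'.Form d) B' z' (s' : Pt S.X),
        Datum 0 R f' ω' B' z' → s'.In U → FibreAt F t D s' f' B' z' →
        HasKltComplement f' ω' B' n z'

end Vale.Agent.P283R.Sl
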