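import Mathlib.AlgebraicGeometry.Morphisms.Etale
import Vale.Agent.P283R.Sl

/-!
# Bounded klt complements: towers of fibrations in curves up to étale base changes
-/

open CategoryTheory AlgebraicGeometry

namespace Vale.Agent.P283R.Sl

open Var

/-- The least class of morphisms which contains the contractions of relative dimension at most one,
is closed under composition, contains `g` if it contains `π ≫ g` for a small birational
contraction `π`, and contains a contraction `g` if it contains the base change `g'` of `g` along an
étale morphism `e`, not necessarily surjective, of degree at most `j`; the index bounds the product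
of the degrees of nested base changes. -/
inductive Steps : ℕ → ∀ {X Y : Var}, (X.X ⟶ Y.X) → Prop
  | one {J : ℕ} {X Y : Var} {g : X.X ⟶ Y.X} : Contraction g →
      dimension X.str ≤ dimension Y.str + 1 → Steps (J + 1) g
  | comp {J : ℕ} {X Y W : Var} {g : X.X ⟶ Y.X} {h : Y.X ⟶ W.X} : Steps J g → Steps J h →
      Steps J (g ≫ h)
  | small {J : ℕ} {X' X Y : Var} {π : X'.X ⟶ X.X} {g : X.X ⟶ Y.X} (p : Iso X X') :
      Contraction π → IsPull π p → (∀ E : X'.PrimeDiv, (E.1.map π).CodimOne) →
      Steps J (π ≫ g) → Steps J g
  | etale {J j k : ℕ} {X' Y' X Y : Var} {g' : X'.X ⟶ Y'.X} {π : X'.X ⟶ X.X} {e : Y'.X ⟶ Y.X}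
      {g : X.X ⟶ Y.X} (b : Fin j → X'.K) : Contraction g → Etale e → e ≫ Y.str = Y'.str →
      IsPullback π g' g e →
      (∀ a, ∃ (y : _) (c : Fin j → _), a = ∑ i, toRat (comap π y (c i)) * b i) → j * k ≤ J →
      Steps k g' → Steps J g

end Vale.Agent.P283R.Sl
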