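import Vale.Agent.P283R.Sl.Cm
import Vale.Agent.P283R.Sl.Eb
import Vale.Agent.P283R.Sl.Bc

/-!
# Bounded klt complements: towers after an étale base change
-/

open CategoryTheory AlgebraicGeometry

namespace Vale.Agent.P283R.Sl

open Var

/-- `g : X → Y` is a contraction which becomes a tower after the base change `π : X' → X` along an
étale morphism `e : Y' → Y`, not necessarily surjective; the degree of `π` is at most `J`. -/
def GeoTower (J : ℕ) {X Y : Var} (g : X.X ⟶ Y.X) : Prop :=
  Contraction g ∧ ∃ (X' Y' : Var) (g' : X'.X ⟶ Y'.X) (π : X'.X ⟶ X.X) (e : Y'.X ⟶ Y.X)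
    (p : Emb X X'), Etale e ∧ e ≫ Y.str = Y'.str ∧ BaseChange g e g' π ∧
    (∀ (y : Pt X'.X) (a : St X.X (y.map π)), p.app (toRat a) = toRat (comap π y a)) ∧
    Spanned J p.app ∧ Tower g'

end Vale.Agent.P283R.Sl
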