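import Vale.Agent.P283R.Sl.Eb
import Vale.Agent.P283R.Sl.Bc

/-!
# Bounded klt complements: towers with étale base changes
-/

open CategoryTheory AlgebraicGeometry

namespace Vale.Agent.P283R.Sl

open Var

/-- `Steps n` is the least class of morphisms which contains the contractions of relative dimension
at most one, is closed under composition, contains `g` if it contains `π ≫ g` for a small birational
contraction `π`, and contains every contraction `g` such that the base change of `g` along some
étale morphism of degree at most `n` is in `Steps (n - 1)`. -/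
inductive Steps : ℕ → ∀ {X Y : Var}, (X.X ⟶ Y.X) → Prop
  | one {n : ℕ} {X Y : Var} {g : X.X ⟶ Y.X} : Contraction g →
      dimension X.str ≤ dimension Y.str + 1 → Steps n g
  | comp {n : ℕ} {X Y W : Var} {g : X.X ⟶ Y.X} {h : Y.X ⟶ W.X} : Steps n g → Steps n h →
      Steps n (g ≫ h)
  | small {n : ℕ} {X' X Y : Var} {π : X'.X ⟶ X.X} {g : X.X ⟶ Y.X} (p : Iso X X') : Contraction π →
      IsPull π p → (∀ E : X'.PrimeDiv, (E.1.map π).CodimOne) → Steps n (π ≫ g) → Steps n g
  | cover {n : ℕ} {X' Y' X Y : Var} {g : X.X ⟶ Y.X} {g' : X'.X ⟶ Y'.X} {π : X'.X ⟶ X.X}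
      {e : Y'.X ⟶ Y.X} (p : Emb X X') : Contraction g → Etale e → e ≫ Y.str = Y'.str →
      BaseChange g e g' π →
      (∀ (y : Pt X'.X) (a : St X.X (y.map π)), p.app (toRat a) = toRat (comap π y a)) →
      Spanned (n + 1) p.app → Steps n g' → Steps (n + 1) g

end Vale.Agent.P283R.Sl
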