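import Mathlib.AlgebraicGeometry.Morphisms.Etale
import Vale.Agent.P283R.Sl

/-!
# Bounded klt complements: towers, with descent along étale base changes
-/

open CategoryTheory AlgebraicGeometry

namespace Vale.Agent.P283R.Tw

open Sl Sl.Var

/-- The least classes of morphisms such that: the contractions of relative dimension at most one
lie in every class; each class is closed under composition, and contains `g` if it contains `π ≫ g`
for a small birational contraction `π`; a contraction `g : X → Y` lies in the class `J + 1` if its
base change `g'` along an étale morphism `e : Y' → Y`, not necessarily surjective, lies in the class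
`J` and the degree of the projection `π : X' → X` is at most `J`. -/
inductive Tower : ℕ → ∀ {X Y : Var}, (X.X ⟶ Y.X) → Prop
  | one {J} {X Y : Var} {g : X.X ⟶ Y.X} : Contraction g →
      dimension X.str ≤ dimension Y.str + 1 → Tower J g
  | comp {J} {X Y W : Var} {g : X.X ⟶ Y.X} {h : Y.X ⟶ W.X} :
      Tower J g → Tower J h → Tower J (g ≫ h)
  | small {J} {X' X Y : Var} {π : X'.X ⟶ X.X} {g : X.X ⟶ Y.X} (p : Iso X X') : Contraction π →
      IsPull π p → (∀ E : X'.PrimeDiv, (E.1.map π).CodimOne) → Tower J (π ≫ g) → Tower J g
  | base {J} {X' Y' X Y : Var} {g : X.X ⟶ Y.X} {g' : X'.X ⟶ Y'.X} {π : X'.X ⟶ X.X}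
      {e : Y'.X ⟶ Y.X} (b : Fin J → X'.K) : Contraction g → Etale e → e ≫ Y.str = Y'.str →
      IsPullback π g' g e →
      (∀ a, ∃ c : Fin J → _, a = ∑ j, toRat (comap π (generic X'.X) (c j)) * b j) →
      Tower J g' → Tower (J + 1) g

end Vale.Agent.P283R.Tw
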