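import Vale.Agent.P283R.Sl

/-!
# Bounded klt complements: local class groups without torsion
-/

open CategoryTheory AlgebraicGeometry

namespace Vale.Agent.P283R.Sl

open Var

variable {X Z : Var}

/-- Every `ℚ`-Cartier Weil divisor `D` is Cartier at the points of the fibre over `z`: the local
class groups of `X` along the fibre have no torsion. -/
def TorsionFreeOver (f : X.X ⟶ Z.X) (z : Pt Z.X) : Prop :=
  ∀ (D : X.PrimeDiv → ℤ) (x : Pt X.X) m g, x.map f = z → 0 < m →
    LocalEq (fun E => D E) m g x → ∃ g, LocalEq (fun E => D E) 1 g x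

end Vale.Agent.P283R.Sl
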