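import Vale.Agent.P283R.Sl.Li
import Vale.Agent.P283R.T3.All

/-!
# P283R: contractions of relative dimension at most one over a class
-/

open CategoryTheory AlgebraicGeometry

namespace Vale.Agent.P283R.Sl

open Var

/-- relative dimension at most one over a class -/
theorem OnN.rel'
    {C : ∀ (d : ℕ) (X Z : Var), (X.X ⟶ Z.X) → X.Form d → X.QDiv → Pt Z.X → Prop} (h : OnN C) :
    OnN fun d X Z f ω B z => ∃ (e : ℕ) (T : Var) (a : X.X ⟶ T.X) (h : T.X ⟶ Z.X) (θ : T.Form e),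
      dimension T.str = e ∧ 1 ≤ e ∧ d ≤ e + 1 ∧ θ.Nonzero ∧ a ≫ h = f ∧ Contraction a ∧
      Contraction h ∧ TrivialOver a ω B ∧ FanoType h θ ∧ ∀ Δ, C e T Z h θ Δ z := by
  intro d hd ε hε R hR
  obtain ⟨n, hn, H⟩ := h.over d hd ε hε R hR
  refine ⟨n, hn, fun X Z f ω B z a b c i s t u => H X Z f ω B z a b c i s t ⟨u.1, u.2.1, ?_⟩⟩
  obtain ⟨ft, -, e, Y, g, k, η, b2, b1, b0, b3, b4, b5, b6, b7, b8⟩ := u
  exact ⟨e, Y, g, k, η, b1, b2, b3, b4, b5, b6, tower_le b5 a b2 b0 b (b4.symm ▸ ft), b7, b8⟩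

/-- the same for classes which do not depend on the boundary -/
theorem OnN.rel {C : ∀ (d : ℕ) (X Z : Var), (X.X ⟶ Z.X) → X.Form d → Pt Z.X → Prop}
    (h : OnN fun d X Z f ω _ z => C d X Z f ω z) :
    OnN fun d X Z f ω B z => ∃ (e : ℕ) (T : Var) (a : X.X ⟶ T.X) (h : T.X ⟶ Z.X) (θ : T.Form e),
      dimension T.str = e ∧ 1 ≤ e ∧ d ≤ e + 1 ∧ θ.Nonzero ∧ a ≫ h = f ∧ Contraction a ∧
      Contraction h ∧ TrivialOver a ω B ∧ FanoType h θ ∧ C e T Z h θ z :=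
  h.rel'.mono fun _ _ _ _ _ _ _ ⟨e, Y, g, h, η, b1, b2, b3, b4, b5, b6, b7, b8, b9, u⟩ =>
    ⟨e, Y, g, h, η, b1, b2, b3, b4, b5, b6, b7, b8, b9, fun _ => u⟩

/-- towers of conics over a germ, for classes which depend on the dimension -/
theorem conic_dim {S : ℕ → ∀ Z : Var, Pt Z.X → Prop}
    (h : On fun d _ Z f ω B z => Crepant f ω B z ∧ S d Z z) : On fun _ _ Z f ω B z =>
    ConicTower f ∧ TrivialOver f ω B ∧ ∃ e : ℕ, dimension Z.str = e ∧ 1 ≤ e ∧ S e Z z := by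
  have k : On fun _ _ Z f ω B z => Crepant f ω B z ∧ ∃ e : ℕ, dimension Z.str = e ∧ S e Z z := by
    intro d hd ε hε R hR
    obtain ⟨n, hn, H⟩ := h d hd ε hε R hR
    refine ⟨n, hn, fun X Z f ω B z a b c i s t ⟨u, e, v, w⟩ => H X Z f ω B z a b c i s t ⟨u, ?_⟩⟩
    obtain ⟨p, hp⟩ := u.1
    obtain rfl : e = d := Nat.cast_injective (v.symm.trans ((dim_pull s hp).trans a))
    exact w
  exact (conic_of Cf.dwn Cf.adp' k).mono fun _ _ _ _ _ _ _ ⟨u, tr, e, v, e1, w⟩ =>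
    ⟨u, tr, v ▸ Nat.cast_ne_zero.2 (by omega), e, v, w⟩

/-- towers of conics over points with a mild index one cover -/
theorem on_conic_cdv : On fun _ _ Z f ω B z => ConicTower f ∧ TrivialOver f ω B ∧
    ∃ e : ℕ, dimension Z.str = e ∧ 3 ≤ e ∧ MildCover e (e - 3) Z z :=
  (conic_dim (S := fun e Z z => 3 ≤ e ∧ MildCover e (e - 3) Z z)
    (on_cdv.mono fun _ _ _ _ _ _ _ u => ⟨u.2.1, u.1, u.2.2⟩)).mono
    fun _ _ _ _ _ _ _ ⟨u, tr, e, v, e1, w⟩ => ⟨u, tr, e, v, by omega, e1, w⟩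

end Vale.Agent.P283R.Sl
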