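import Vale.Agent.P283R.Sl.Gn

/-!
# Bounded klt complements: orbit spaces with few Cox generators, short form
-/

open CategoryTheory AlgebraicGeometry

namespace Vale.Agent.P283R.Sl

open Var

/-- `φ` is a homomorphism of `ℂ`-algebras, `y` are algebraically independent over its image, and
`A` is spanned by its elements of the form `φ(c) y ^ m`. -/
def Graded {L K : Type} [Field L] [Algebra ℂ L] [Field K] [Algebra ℂ K] {r : ℕ} (φ : L → K)
    (y : Fin r → K) (A : Set K) : Prop :=
  (∃ ψ : L →ₐ[ℂ] K, ψ = φ ∧ ∀ p : MvPolynomial (Fin r) L, p.eval₂ ψ y = 0 → p = 0) ∧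
    ∀ a ∈ A, a ∈ Submodule.span ℂ {b ∈ A | ∃ (c : L) (m : Fin r → ℤ), b = φ c * ∏ i, y i ^ m i}

/-- The open subset `V` of `X` is covered by affine open subsets on which a torus acts: `y` are
eigenfunctions, the invariant rational functions are the rational functions `φ c` on a variety `Y`,
every prime divisor of `V` dominates `Y` or a prime divisor of `Y`, and the Cox ring of `Y`, formed
with prime divisors `D_i` which generate the class group, has at most `l` generators. -/
def CoxBase (l : ℕ) {X : Var} (V : X.X.Opens) : Prop :=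
  ∃ (Y : Var) (φ : Y.K → X.K) (r k : ℕ) (y : Fin r → X.K) (D : Fin k → Y.PrimeDiv),
    (∀ x : Pt X.X, x.In V → ∃ U ≤ V, IsAffineOpen U ∧ x.In U ∧ Graded φ y (regOn U)) ∧
    (∀ E : X.PrimeDiv, E.1.In V → (∀ c, ord (φ c) E = 0) ∨
      ∃ (F : Y.PrimeDiv) (μ : ℤ), ∀ c, ord (φ c) E = μ * ord c F) ∧
    GradedGen l (fun m => sections (all Y.X) (comb (fun i => .single (D i) 1) m)) ∧
    ∀ G : Y.Div, InSpan (all Y.X) (fun i => .single (D i) 1) fun F => G F

end Vale.Agent.P283R.Sl
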