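import Vale.Agent.P283R.Sl.Sq

/-!
# Bounded klt complements: spherical varieties over a fixed point
-/

open CategoryTheory AlgebraicGeometry

namespace Vale.Agent.P283R.Sl

open Var

/-- The open subset `U` of `X` is a spherical variety, an embedding of `G / H`: the function field
is the field of the right `H`-invariant functions on the reductive group `G`, the Lie algebras of
the Borel subgroup and of `H` span the Lie algebra of `G`, and the left translations permute the
local rings of `U`. The translations do not change the values of the regular functions on `U` at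
the points of `S`. -/
def SphericalFix {X : Var} (N : ℕ) (U : X.X.Opens) (S : Set (Pt X.X)) : Prop :=
  ∃ (L : Type) (_ : Field L) (_ : Algebra ℂ L) (x : Matrix (Fin N) (Fin N) L) (G H : Set (Mat N))
    (l r : Mat N → L ≃ₐ[ℂ] L) (i : X.K →ₐ[ℂ] L), Reductive x G l r ∧ H ⊆ G ∧
    (∀ a, (∃ b, i b = a) ↔ ∀ h ∈ H, r h a = a) ∧
    (∀ ξ, Tangent G ξ → ∃ β, Borel G β ∧ Tangent H (ξ - β)) ∧
    (∀ g ∈ G, ∀ y : Pt X.X, y.In U → ∃ y' : Pt X.X, y'.In U ∧
      ∀ a a', l g (i a) = i a' → (RegAt a y ↔ RegAt a' y')) ∧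
    ∀ g ∈ G, ∀ a ∈ regOn U, ∀ a', l g (i a) = i a' → a' ≠ a → ∀ y ∈ S, ¬ RegAt (a' - a)⁻¹ y

theorem SphericalFix.old {X : Var} {N : ℕ} {U : X.X.Opens} {S : Set (Pt X.X)}
    (h : SphericalFix N U S) : IsSpherical N U := by
  obtain ⟨L, _, _, x, G, H, l, r, i, a, b, c, d, e, -⟩ := h
  exact ⟨L, _, _, x, G, H, l, r, i, a, b, c, d, e⟩

end Vale.Agent.P283R.Sl
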