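import Vale.Agent.P283R.Sl.Sq4
import Vale.Agent.P283R.Sl.Sq2
import Vale.Agent.P283R.Sl.Cq2
import Vale.Agent.P283R.Sl.Cq

/-!
# P283R: the short forms imply the long ones, second part
-/

open CategoryTheory AlgebraicGeometry

namespace Vale.Agent.P283R.Sl

theorem Sph.old {X : Var} {U : X.X.Opens} {S : Set (Pt X.X)} (h : Sph U S) :
    ∃ N, SphericalFix N U S := by
  obtain ⟨N, L, _, _, x, G, H, l, r, i, h⟩ := h
  exact ⟨N, L, _, _, x, G, H, l, r, i, ⟨h.1, h.2, h.3, h.4, h.5, h.6, h.7, h.8, h.9⟩, h.10, h.11,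
    h.12, fun g a => (h.13 g a).1, fun g a => (h.13 g a).2⟩

theorem Sph.new {X : Var} {U : X.X.Opens} {S : Set (Pt X.X)} {N : ℕ} (h : SphericalFix N U S) :
    Sph U S := by
  obtain ⟨L, _, _, x, G, H, l, r, i, h, a, b, c, e, k⟩ := h
  exact ⟨N, L, _, _, x, G, H, l, r, i, h.1, h.2, h.3, h.4, h.5, h.6, h.7, h.8, h.9, a, b, c,
    fun g u => ⟨e g u, k g u⟩⟩

theorem CoxBase.old {l : ℕ} {X : Var} {V : X.X.Opens} (h : CoxBase l V) (x : Pt X.X)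
    (hx : x.In V) : CoxQuotient l V := by
  obtain ⟨Y, φ, r, k, y, D, a, b, c, e⟩ := h
  obtain ⟨U, -, -, -, ⟨ψ, rfl, i⟩, -⟩ := a x hx
  exact ⟨Y, ψ, r, k, y, D, i, fun x hx => (a x hx).imp fun _ u => ⟨u.1, u.2.1, u.2.2.1, u.2.2.2.2⟩,
    b, c, e⟩

end Vale.Agent.P283R.Sl
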