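import Vale.Agent.P283R.Sl.Cl

/-!
# Bounded klt complements: mild singularities
-/

open CategoryTheory AlgebraicGeometry

namespace Vale.Agent.P283R.Sl

open Var

/-- `K_Z = div η` is `ℚ`-Cartier at `z`, and `A_Z(E) > a + b ord_E(m_z)` for all prime divisors `E`
over `Z` with centre `z`; `x` is an element of the maximal ideal `m_z`. -/
def Mild (d : ℕ) (a b : ℝ) (Z : Var) (z : Pt Z.X) : Prop :=
  ∃ (η : Z.Form d) (m : ℕ) (g : Z.K), η.Nonzero ∧ 0 < m ∧ LocalEq (logCan η 0) m g z ∧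
    ∀ (M : Model Z) (E : M.Y.PrimeDiv), E.1.map M.π = z → ∃ x, RegAt x z ∧ ¬ RegAt x⁻¹ z ∧
      a + b * ord (M.pull.app x) E < 1 + (formOrd η M.pull E - (ord (M.pull.app g) E : ℝ) / m)

end Vale.Agent.P283R.Sl
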