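import Vale.Agent.P283R.Sl.Tq
import Vale.Agent.P283R.Sl.Ml

/-!
# Bounded klt complements: quotients of mild singularities
-/

open CategoryTheory AlgebraicGeometry

namespace Vale.Agent.P283R.Sl

open Var

/-- `Z = Y / G` with `G` finite and free in codimension one, `y` is the only point over `z`, and
`A_Y(E) > 1 + (d - 3) ord_E(m_y)` for all prime divisors `E` over `Y` with centre `y`. -/
def MildQuotient (d : ℕ) (Z : Var) (z : Pt Z.X) : Prop :=
  ∃ (Y : Var) (π : Y.X ⟶ Z.X) (y : Pt Y.X), FiniteQuotient π ∧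
    (∀ x : Pt Y.X, x.map π = z ↔ x = y) ∧ Mild d 1 (d - 3) Y y

end Vale.Agent.P283R.Sl
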