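import Vale.Agent.P283R.Sl.Cq2

/-!
# Bounded klt complements: orbit spaces with many boundary divisors, few of them over each point
-/

open CategoryTheory AlgebraicGeometry

namespace Vale.Agent.P283R.Sl

open Var

/-- The open subset `V` of `X` is covered by affine open subsets on which a torus acts: `y` are
eigenfunctions, the invariant rational functions are the rational functions `φ c` on a variety `Y`,
and every prime divisor of `V` dominates `Y` or a prime divisor of `Y`. The prime divisors `F ∈ S`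
generate the class group of `Y`, the Cox ring of `Y` is generated by their canonical sections and
by at most `l` functions `s` (every function `g` which is regular outside of `S` is a combination of
monomials in `s` of at least the orders of `g` along `S`). For every point `x`, let `N` be the set
of the `F ∈ S` below a prime divisor `E` such that the regular functions which vanish on `E` vanish
at `x`; the cone spanned by the vectors of the orders of `s` along the `F ∈ N` is spanned by at most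
`l` of them. -/
def ConeBase (l : ℕ) {X : Var} (V : X.X.Opens) : Prop :=
  ∃ (Y : Var) (φ : Y.K → X.K) (r n : ℕ) (y : Fin r → X.K) (S : Finset Y.PrimeDiv)
    (s : Fin n → Y.K), n ≤ l ∧
    (∀ x : Pt X.X, x.In V → ∃ U ≤ V, IsAffineOpen U ∧ x.In U ∧ Graded φ y (regOn U)) ∧
    (∀ E : X.PrimeDiv, E.1.In V → (∀ c, ord (φ c) E = 0) ∨
      ∃ (F : Y.PrimeDiv) (μ : ℤ), ∀ c, ord (φ c) E = μ * ord c F) ∧
    (∀ G : Y.Div, ∃ g, g ≠ 0 ∧ ∀ F ∉ S, ord g F = G F) ∧
    (∀ j, s j ≠ 0 ∧ ∀ F ∉ S, 0 ≤ ord (s j) F) ∧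
    (∀ g, (∀ F ∉ S, 0 ≤ ord g F) → g ∈ Submodule.span ℂ
      {x | (∃ w : Fin n → ℕ, x = ∏ j, s j ^ w j) ∧ ∀ F ∈ S, ord g F ≤ ord x F}) ∧
    ∀ x : Pt X.X, x.In V → ∀ N, N = {F | F ∈ S ∧ ∃ (E : X.PrimeDiv) (μ : ℤ), E.1.In V ∧ 0 < μ ∧
      (∀ c, ord (φ c) E = μ * ord c F) ∧ ∀ a ∈ regOn V, 0 < ord a E → ¬ RegAt a⁻¹ x} →
      ∃ D : Finset N, D.card ≤ l ∧ ∀ m : Fin n → ℤ,
        (∀ F ∈ D, 0 ≤ ∑ j, m j * ord (s j) F) → ∀ F ∈ N, 0 ≤ ∑ j, m j * ord (s j) F

end Vale.Agent.P283R.Sl
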