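import Vale.Agent.P283R.Sl.Cq2

/-!
# Bounded klt complements: orbit spaces with many boundary divisors, a condition over each point
-/

open CategoryTheory AlgebraicGeometry

namespace Vale.Agent.P283R.Sl

open Var

/-- The preimage of `W` is covered by affine open subsets on which a torus acts: `y` are
eigenfunctions, the invariant rational functions are the rational functions `φ c` on a variety `Y`,
and every prime divisor dominates `Y` or a prime divisor of `Y`. The prime divisors `F ∈ S` generate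
the class group of `Y`, the Cox ring of `Y` is generated by their canonical sections and by at most
`l` functions `s` (every function `g` which is regular outside of `S` is a combination of monomials
in `s` of at least the orders of `g` along `S`). Over each point `z` of `W`, the cone spanned by the
vectors of the orders of `s` along those `F ∈ S` which carry a prime divisor meeting the fibre
is spanned by at most `l` of them. -/
def FibreQuot (l : ℕ) {X Z : Var} (f : X.X ⟶ Z.X) (W : Z.X.Opens) : Prop :=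
  ∃ (Y : Var) (φ : Y.K → X.K) (r n : ℕ) (y : Fin r → X.K) (S : Finset Y.PrimeDiv)
    (s : Fin n → Y.K), n ≤ l ∧
    (∀ x : Pt X.X, x.In (pre f W) → ∃ U ≤ pre f W, IsAffineOpen U ∧ x.In U ∧
      Graded φ y (regOn U)) ∧
    (∀ E : X.PrimeDiv, E.1.In (pre f W) → (∀ c, ord (φ c) E = 0) ∨
      ∃ (F : Y.PrimeDiv) (μ : ℤ), ∀ c, ord (φ c) E = μ * ord c F) ∧
    (∀ G : Y.Div, ∃ g, g ≠ 0 ∧ ∀ F ∉ S, ord g F = G F) ∧
    (∀ j, s j ≠ 0 ∧ ∀ F ∉ S, 0 ≤ ord (s j) F) ∧
    (∀ g, (∀ F ∉ S, 0 ≤ ord g F) → g ∈ Submodule.span ℂ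
      {x | (∃ w : Fin n → ℕ, x = ∏ j, s j ^ w j) ∧ ∀ F ∈ S, ord g F ≤ ord x F}) ∧
    ∀ z : Pt Z.X, z.In W → ∀ N : Finset Y.PrimeDiv, (∀ F, F ∈ N ↔ F ∈ S ∧
      ∃ (E : X.PrimeDiv) (μ : ℤ), 0 < μ ∧ (∀ U, z.In U → E.1.In (pre f U)) ∧
        ∀ c, ord (φ c) E = μ * ord c F) → ∃ Δ ⊆ N, Δ.card ≤ l ∧ ∀ m : Fin n → ℤ,
      (∀ F ∈ Δ, 0 ≤ ∑ j, m j * ord (s j) F) → ∀ F ∈ N, 0 ≤ ∑ j, m j * ord (s j) F

end Vale.Agent.P283R.Sl
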