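import Vale.Agent.P283R.Sl

/-!
# Bounded klt complements: towers of fibrations in curves and birational contractions
-/

open CategoryTheory AlgebraicGeometry

namespace Vale.Agent.P283R.Sl

open Var

/-- The least class of morphisms which contains the contractions of relative dimension at most one,
is closed under composition, and contains `g` if it contains `π ≫ g` for a small birational
contraction `π`. -/
inductive Tower : ∀ {X Y : Var}, (X.X ⟶ Y.X) → Prop
  | one {X Y : Var} {g : X.X ⟶ Y.X} : Contraction g → dimension X.str ≤ dimension Y.str + 1 →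
      Tower g
  | comp {X Y W : Var} {g : X.X ⟶ Y.X} {h : Y.X ⟶ W.X} : Tower g → Tower h → Tower (g ≫ h)
  | small {X' X Y : Var} {π : X'.X ⟶ X.X} {g : X.X ⟶ Y.X} (p : Iso X X') : Contraction π →
      IsPull π p → (∀ E : X'.PrimeDiv, (E.1.map π).CodimOne) → Tower (π ≫ g) → Tower g

end Vale.Agent.P283R.Sl
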