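import Vale.Agent.P283R.Sl

/-!
# Bounded klt complements: chains of contractions of relative dimension at most one
-/

open CategoryTheory AlgebraicGeometry

namespace Vale.Agent.P283R.Sl

/-- `g` is a composition of contractions of relative dimension at most one. -/
inductive Chain : ∀ {X Y : Var}, (X.X ⟶ Y.X) → Prop
  | one {X Y : Var} {g : X.X ⟶ Y.X} : Contraction g → dimension X.str ≤ dimension Y.str + 1 →
      Chain g
  | comp {X Y W : Var} {g : X.X ⟶ Y.X} {h : Y.X ⟶ W.X} : Chain g → Chain h → Chain (g ≫ h)

end Vale.Agent.P283R.Sl
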