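import Vale.Agent.P283R.Sl

/-!
# Bounded klt complements: bounded Cartier index
-/

open CategoryTheory AlgebraicGeometry

namespace Vale.Agent.P283R.Sl

open Var

variable {X Z : Var} {d : ℕ}

/-- `m (K_X + B)` is a Cartier divisor at the points of the fibre over `z`. -/
def CartierOver (m : ℕ) (f : X.X ⟶ Z.X) (ω : X.Form d) (B : X.QDiv) (z : Pt Z.X) : Prop :=
  ∀ x : Pt X.X, x.map f = z → ∃ g, LocalEq (logCan ω B) m g x

/-- `r E` is a Cartier divisor at the points of the fibre over `z`, for every prime divisor `E`;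
for `r = 1`: `X` is locally factorial along the fibre. -/
def FactorialOver (r : ℕ) (f : X.X ⟶ Z.X) (z : Pt Z.X) : Prop :=
  ∀ (E : X.PrimeDiv) (x : Pt X.X), x.map f = z → ∃ g, LocalEq (QDiv.coeff (.single E 1)) r g x

end Vale.Agent.P283R.Sl
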