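import Vale.Agent.P283R.Sl.Lj
import Vale.Agent.P283R.Bc.On

/-!
# P283R: the literal classes after a finite cover whose degree is bounded in terms of the dimension
-/

open CategoryTheory AlgebraicGeometry

namespace Vale.Agent.P283R.Sl

open Var

/-- covers of a degree which depends on the dimension -/
theorem on_covd {C : ∀ (d : ℕ) (X Z : Var), (X.X ⟶ Z.X) → X.Form d → X.QDiv → Pt Z.X → Prop}
    (h : On C) (J : ℕ → ℕ) : On fun d _ _ f _ B z => Covered (J d) (C d) f B z :=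
  fun d => on_cov h (J d) d

/-- the union of the two classes, after an étale base change and a finite cover -/
theorem literalC (J : ℕ → ℕ)
    {C : ∀ (d : ℕ) (X Z : Var), (X.X ⟶ Z.X) → X.Form d → Pt Z.X → Prop}
    (h : OnN fun d X Z f ω _ z => C d X Z f ω z) :
    ∀ d : ℕ, 1 ≤ d → ∀ ε : ℝ, 0 < ε → ∀ R : Finset ℚ, (∀ r ∈ R, 0 ≤ r ∧ r ≤ 1) →
    ∃ n : ℕ, 1 ≤ n ∧ ∀ (X Z : Var) (f : X.X ⟶ Z.X) (ω : X.Form d) (B : X.QDiv)
      (z : Pt Z.X), dimension X.str = d → ω.Nonzero → Pair (ε ≤ ·) (all X.X) ω B →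
      (∀ y, B.coeff y ≠ 0 → B.coeff y ∈ R) → Contraction f → FanoType f ω →
      NefOver f (-logCan ω B) → z.Closed →
      EtLocal (fun _ _ f' (_ : Form _ d) B' z' => Covered (J d)
        (fun Y W g (η : Y.Form d) D w => FanoType g η ∧ NefOver g (-logCan η D) ∧
        ((∃ (e : ℕ) (T : Var) (a : Y.X ⟶ T.X) (h : T.X ⟶ W.X) (θ : T.Form e),
          dimension T.str = e ∧ 1 ≤ e ∧ θ.Nonzero ∧ a ≫ h = g ∧ CurveChain a ∧
          Contraction h ∧ TrivialOver a η D ∧ FanoType h θ ∧ C e T W h θ w) ∨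
        ∃ e : ℕ, dimension W.str = e ∧ 1 ≤ e ∧ CurveChain g ∧ TrivialOver g η D ∧
          (LciqOr (e = d ∧ SameCoeff g D.coeff 0) W w ∨ 3 ≤ e ∧ MildCover e (e - 3) W w)))
        f' B' z') f B z →
      HasKltComplement f ω B n z := fun d hd ε hε R hR =>
  (on_et (on_covd (h.chain.or onN_germ) J) d hd ε hε R hR).imp
    fun _ H => ⟨H.1, fun X Z f ω B z a b c e s _ _ t w => H.2 X Z f ω B z a b c e s t w⟩

end Vale.Agent.P283R.Sl
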