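import Vale.Agent.P283R.Sl.Cq2

/-!
# Bounded klt complements: orbit spaces whose ring of sections has few more generators than degrees
-/

open CategoryTheory AlgebraicGeometry

namespace Vale.Agent.P283R.Sl

open Var

/-- The open subset `V` of `X` is covered by affine open subsets on which a torus acts: `y` are
eigenfunctions, the invariant rational functions are the rational functions `φ c` on a variety `Y`,
every prime divisor of `V` dominates `Y` or a prime divisor of `Y`, and the ring of the sections of
the integral combinations of `k` Weil divisors which generate the class group of `Y` has at most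
`k + l` generators. -/
def RankBase (l : ℕ) {X : Var} (V : X.X.Opens) : Prop :=
  ∃ (Y : Var) (φ : Y.K → X.K) (r k : ℕ) (y : Fin r → X.K) (D : Fin k → Y.Div),
    (∀ x : Pt X.X, x.In V → ∃ U ≤ V, IsAffineOpen U ∧ x.In U ∧ Graded φ y (regOn U)) ∧
    (∀ E : X.PrimeDiv, E.1.In V → (∀ c, ord (φ c) E = 0) ∨
      ∃ (F : Y.PrimeDiv) (μ : ℤ), ∀ c, ord (φ c) E = μ * ord c F) ∧
    GradedGen (k + l) (fun m => sections (all Y.X) (comb D m)) ∧
    ∀ G : Y.Div, InSpan (all Y.X) D fun F => G F

end Vale.Agent.P283R.Sl
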