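import Vale.Agent.P283R.Sl.Cq2

/-!
# Bounded klt complements: orbit spaces which are toric or have few Cox generators
-/

open CategoryTheory AlgebraicGeometry

namespace Vale.Agent.P283R.Sl

open Var

/-- The open subset `V` of `X` is covered by affine open subsets on which a torus acts: `y` are
eigenfunctions, the invariant rational functions are the rational functions `φ c` on a variety `Y`,
and every prime divisor of `V` dominates `Y` or a prime divisor of `Y`. Either `Y` is toric, and
for every point `x` the cone of the rays of the set `N` of the prime divisors on which all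
regular functions vanish only if they vanish at `x` has at most `l` generators; or the Cox ring of
`Y`, formed with prime divisors `D_i` which generate the class group, has at most `l` generators. -/
def OrbitBase (l : ℕ) {X : Var} (V : X.X.Opens) : Prop :=
  ∃ (Y : Var) (φ : Y.K → X.K) (r : ℕ) (y : Fin r → X.K),
    (∀ x : Pt X.X, x.In V → ∃ U ≤ V, IsAffineOpen U ∧ x.In U ∧ Graded φ y (regOn U)) ∧
    (∀ E : X.PrimeDiv, E.1.In V → (∀ c, ord (φ c) E = 0) ∨
      ∃ (F : Y.PrimeDiv) (μ : ℤ), ∀ c, ord (φ c) E = μ * ord c F) ∧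
    ((∃ (c : ℕ) (s : Fin c → Y.K), (∀ x : Pt Y.X, ∃ U, IsAffineOpen U ∧ x.In U ∧
      Graded (algebraMap ℂ Y.K) s (regOn U)) ∧ ∀ x : Pt X.X, x.In V → ∀ N,
        N = {E : X.PrimeDiv | E.1.In V ∧ ∀ a ∈ regOn V, 0 < ord a E → ¬ RegAt a⁻¹ x} →
        ∃ D : Finset N, D.card ≤ l ∧ ∀ m : Fin c → ℤ,
          (∀ E ∈ D, 0 ≤ ∑ i, m i * ord (φ (s i)) E) → ∀ E ∈ N, 0 ≤ ∑ i, m i * ord (φ (s i)) E) ∨
    ∃ (k : ℕ) (D : Fin k → Y.PrimeDiv),
      GradedGen l (fun m => sections (all Y.X) (comb (fun i => .single (D i) 1) m)) ∧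
      ∀ G : Y.Div, InSpan (all Y.X) (fun i => .single (D i) 1) fun F => G F)

end Vale.Agent.P283R.Sl
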