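import Mathlib.Algebra.Lie.Semisimple.Defs
import Mathlib.RingTheory.Derivation.Lie
import Vale.Agent.P283R.Sl.Gn

/-!
# Bounded klt complements: spherical varieties
-/

open CategoryTheory AlgebraicGeometry

namespace Vale.Agent.P283R.Sl

open Var

section

variable {K L : Type} [Field K] [Algebra ℂ K] [LieRing L] [LieAlgebra ℂ L] {k : ℕ}

/-- The subspace `N` is invariant under the action `ρ`. -/
def Invariant (ρ : L →ₗ⁅ℂ⁆ Derivation ℂ (Laurent K k) (Laurent K k))
    (N : Submodule ℂ (Laurent K k)) : Prop :=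
  ∀ δ, ∀ F ∈ N, ρ δ F ∈ N

/-- The reductive Lie algebra `L = s + b` (`s` is a semisimple ideal which acts faithfully on `K`,
`b` is a solvable subalgebra) acts on the graded ring `⊕ A_m t^m` by derivations of degree zero;
the action is locally finite and completely reducible, and `b` has an open orbit: it spans the
derivations of the function field `K` of dimension `d`. -/
structure SphericalAction (d : ℕ) (A : (Fin k → ℤ) → Set K) (s : LieIdeal ℂ L)
    (b : LieSubalgebra ℂ L) (ρ : L →ₗ⁅ℂ⁆ Derivation ℂ (Laurent K k) (Laurent K k)) : Prop where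
  finite : Module.Finite ℂ L
  semisimple : LieAlgebra.IsSemisimple ℂ s
  solvable : LieAlgebra.IsSolvable b
  sum : ∀ δ, ∃ u ∈ s, δ - u ∈ b
  graded : ∀ δ m φ, ∃ ψ, ρ δ (.single m φ) = .single m ψ ∧ (φ ∈ A m → ψ ∈ A m)
  faithful : ∀ δ ∈ s, (∀ φ, ρ δ (.single 0 φ) = 0) → δ = 0
  locFinite : ∀ m, ∀ φ ∈ A m, ∃ N, Invariant ρ N ∧ Module.Finite ℂ N ∧ .single m φ ∈ N
  reducible : ∀ N N', Invariant ρ N → Invariant ρ N' → N ≤ N' →
    (∀ F ∈ N', ∀ m, F.coeff m ∈ A m) → ∃ M, Invariant ρ M ∧ Disjoint N M ∧ N ⊔ M = N'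
  orbit : ∃ (δ : Fin d → L) (y : Fin d → K), (∀ i, δ i ∈ b) ∧
    (Matrix.of fun i j => ρ (δ i) (.single 0 (y j))).det ≠ 0

end

variable {X Z : Var}

/-- Over an affine neighbourhood `V` of `z` the variety `X` is spherical: there are Weil divisors
`D_1, …, D_k` which generate the class group of `f⁻¹ V` such that the finitely generated ring
`⊕ H⁰(f⁻¹ V, ∑ m_i D_i)` carries a spherical action of a reductive Lie algebra. -/
def SphericalCox (f : X.X ⟶ Z.X) (d : ℕ) (z : Pt Z.X) : Prop :=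
  ∃ (k N : ℕ) (V : Z.X.Opens) (D : Fin k → X.Div) (L : Type) (_ : LieRing L) (_ : LieAlgebra ℂ L)
    (s : LieIdeal ℂ L) (b : LieSubalgebra ℂ L)
    (ρ : L →ₗ⁅ℂ⁆ Derivation ℂ (Laurent X.K k) (Laurent X.K k)), IsAffineOpen V ∧ z.In V ∧
    (∀ E, InSpan (pre f V) D (QDiv.coeff (.single E 1))) ∧
    GradedGen N (fun m => sections (pre f V) (comb D m)) ∧
    SphericalAction d (fun m => sections (pre f V) (comb D m)) s b ρ

end Vale.Agent.P283R.Sl
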