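import Vale.Agent.P283R.Sl.Sg

/-!
# Bounded klt complements: spherical open subsets
-/

open CategoryTheory AlgebraicGeometry

namespace Vale.Agent.P283R.Sl

open Var

/-- The open subset `U` of `X` is a spherical variety of dimension `d`: there are Weil divisors
`D_1, …, D_k` which generate the class group of `U` such that the finitely generated ring
`⊕ H⁰(U, ∑ m_i D_i)` carries a spherical action of a reductive Lie algebra. -/
def SphericalOpen {X : Var} (U : X.X.Opens) (d : ℕ) : Prop :=
  ∃ (k N : ℕ) (D : Fin k → X.Div) (L : Type) (_ : LieRing L) (_ : LieAlgebra ℂ L)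
    (s : LieIdeal ℂ L) (b : LieSubalgebra ℂ L)
    (ρ : L →ₗ⁅ℂ⁆ Derivation ℂ (Laurent X.K k) (Laurent X.K k)),
    (∀ E, InSpan U D (QDiv.coeff (.single E 1))) ∧ GradedGen N (fun m => sections U (comb D m)) ∧
    SphericalAction d (fun m => sections U (comb D m)) s b ρ

end Vale.Agent.P283R.Sl
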