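import Vale.Agent.P283R.Sl

/-!
# Bounded klt complements: the zero scheme of a function, the restriction of a boundary
-/

open CategoryTheory AlgebraicGeometry

namespace Vale.Agent.P283R.Sl

open Var

variable {S X : Var}

/-- The kernel of `p` is generated by `a`. -/
def KerGen {A A' : Type} [CommRing A] [CommRing A'] (p : A → A') (a : A) : Prop :=
  ∀ b, p b = 0 ↔ a ∣ b

/-- `i : S → X` identifies `S` with the subscheme of the zeros of `t`, a nonzero regular function
on the open subset `U` of `X`. -/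
def Zeros (i : S.X ⟶ X.X) (t : X.K) (U : X.X.Opens) : Prop :=
  IsPreimmersion i ∧ i ≫ X.str = S.str ∧ t ≠ 0 ∧ t ∈ regOn U ∧
    (∀ x : Pt X.X, x.In U → RegAt t⁻¹ x ∨ ∃ s : Pt S.X, s.map i = x) ∧
    ∀ s : Pt S.X, (s.map i).In U ∧ ∃ a, toRat a = t ∧ KerGen (comap i s) a

/-- `B'` is the restriction of `B` to `S`: `B` is `ℚ`-Cartier at the generic point of each prime
divisor `y` of `S`, and a local equation `a` of `m B` restricts to a local equation of `m B'`. -/
def Restrict (i : S.X ⟶ X.X) (B' : S.QDiv) (B : X.QDiv) : Prop :=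
  ∀ y : S.PrimeDiv, ∃ (m : ℕ) (a : St X.X (y.1.map i)), 0 < m ∧
    LocalEq B.coeff m (toRat a) (y.1.map i) ∧ LocalEq B'.coeff m (toRat (comap i y.1 a)) y.1

end Vale.Agent.P283R.Sl
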