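import Vale.Agent.P283R.Sl.Cl

/-!
# Bounded klt complements: torus actions of complexity one
-/

open CategoryTheory AlgebraicGeometry

namespace Vale.Agent.P283R.Sl

open Var

/-- `A` is spanned by its elements of the form `φ(s) y ^ m` with `φ` a rational function of `s`. -/
def GradedBy {K : Type} [Field K] [Algebra ℂ K] {r : ℕ} (s : K) (y : Fin r → K) (A : Set K) :
    Prop :=
  ∀ a ∈ A, a ∈ Submodule.span ℂ {b ∈ A | ∃ φ ∈ IntermediateField.adjoin ℂ {s},
    ∃ m : Fin r → ℤ, b = φ * ∏ i, y i ^ m i}

/-- The open subset `V` of `X` is covered by affine open subsets on which a torus of dimension `r`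
acts: `y` are eigenfunctions, and the invariant rational functions form the field `ℂ(s)`. -/
def ComplexityOne {X : Var} (V : X.X.Opens) (r : ℕ) : Prop :=
  ∃ (s : X.K) (y : Fin r → X.K), Independent (Fin.cons s y : Fin (r + 1) → X.K) ∧
    ∀ x : Pt X.X, x.In V → ∃ U ≤ V, IsAffineOpen U ∧ x.In U ∧ GradedBy s y (regOn U)

end Vale.Agent.P283R.Sl
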