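import Vale.Agent.P283R.Sl.Ad

/-!
# Bounded klt complements: families of pairs
-/

open CategoryTheory AlgebraicGeometry

namespace Vale.Agent.P283R.Sl

open Var

variable {S T X Z : Var}

/-- `(f : X → Z, B, z)` is the fibre `{t = c}` of the family `(F : T → S, D)` at the point `s`:
`X` is the zero scheme of `t - c` on `T`, `B` is the restriction of `D`, and `Z` is a subvariety of
`S` in which `z` is the point `s`. -/
def FibreAt (F : T.X ⟶ S.X) (t : T.K) (D : T.QDiv) (s : Pt S.X) (f : X.X ⟶ Z.X) (B : X.QDiv)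
    (z : Pt Z.X) : Prop :=
  ∃ (i : X.X ⟶ T.X) (j : Z.X ⟶ S.X) (c : ℂ), IsPreimmersion j ∧ f ≫ j = i ≫ F ∧ z.map j = s ∧
    Zeros i (t - constants T.str c) (all T.X) ∧ Restrict i B D

end Vale.Agent.P283R.Sl
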