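import Vale.Agent.P283R.Sl.Bc

/-!
# Bounded klt complements: quotients by finite groups, short form
-/

open CategoryTheory AlgebraicGeometry

namespace Vale.Agent.P283R.Sl

open Var

/-- `S` is the field of invariants of a finite group of automorphisms of `L`. -/
def Fixed {L : Type} [Field L] [Algebra ℂ L] (S : Set L) : Prop :=
  ∃ G : Subgroup (L ≃ₐ[ℂ] L), Finite G ∧ ∀ g, (∀ σ ∈ G, σ g = g) ↔ g ∈ S

/-- `π : Y → X` is the quotient by a finite group which acts freely in codimension one. -/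
def FinQuot {X Y : Var} (π : Y.X ⟶ X.X) : Prop :=
  IsFinite π ∧ Surjective π ∧ π ≫ X.str = Y.str ∧ ∃ p : Emb X Y,
    (∀ (y : Pt Y.X) (a : St X.X (y.map π)), p.app (toRat a) = toRat (comap π y a)) ∧
    Fixed (Set.range p.app) ∧
    ∀ E : Y.PrimeDiv, ∃ y : X.PrimeDiv, E.1.map π = y.1 ∧ ∀ a, ord (p.app a) E = ord a y

end Vale.Agent.P283R.Sl
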