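import Vale.Agent.P283R.Pu.Cl

/-!
# Bounded klt complements: quotients of complete intersections, short form
-/

open CategoryTheory AlgebraicGeometry

namespace Vale.Agent.P283R.Sl

open Var

/-- `A` is the ring of functions of a quotient `Y / G` with `Y` in `Spec S`, and `p` holds or `Y`
is regular in codimension two. -/
def QuotOr (p : Prop) (c : ℕ) {K : Type} [Field K] [Algebra ℂ K] (A : Set K) (S : Type)
    [CommRing S] [Algebra ℂ S] : Prop :=
  ∃ I G i, IsQuot c (S := S) A I G i ∧ (p ∨ RegCodimTwo (S ⧸ I))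

/-- Étale locally at `z`, `Z` is a quotient `Y / G` of a complete intersection `Y`, and `p` holds or
`Y` is regular in codimension two. -/
def LciOr (p : Prop) (Z : Var) (z : Pt Z.X) : Prop :=
  ∃ (c : ℕ) (W : Var) (e : W.X ⟶ Z.X) (w : Pt W.X) (U : W.X.Opens) (S : Type) (_ : CommRing S)
    (_ : Algebra ℂ S), EtNb e w z ∧ IsAffineOpen U ∧ w.In U ∧ QuotOr p c (regOn U) S

end Vale.Agent.P283R.Sl
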