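import Vale.Agent.P283R.Sl.Cl
import Vale.Agent.P283R.Sl.Bc

/-!
# Bounded klt complements: quotients of toric varieties by finite groups
-/

open CategoryTheory AlgebraicGeometry

namespace Vale.Agent.P283R.Sl

open Var

variable {X Y Z : Var}

/-- The groups of automorphisms of the function field. -/
abbrev Var.Grp (Y : Var) : Type := Subgroup (Y.K ≃ₐ[ℂ] Y.K)

/-- `G` is finite and `g` lies in the image of `p` if and only if `G` fixes `g`. -/
def FixedField (G : Y.Grp) (p : Emb X Y) : Prop :=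
  Finite G ∧ ∀ g, (∀ σ ∈ G, σ g = g) ↔ ∃ a, p.app a = g

/-- `π : Y → X` is the quotient by a finite group which acts freely in codimension one. -/
def FiniteQuotient (π : Y.X ⟶ X.X) : Prop :=
  IsFinite π ∧ Surjective π ∧ π ≫ X.str = Y.str ∧ ∃ (p : Emb X Y) (G : Y.Grp),
    (∀ (y : Pt Y.X) (a : St X.X (y.map π)), p.app (toRat a) = toRat (comap π y a)) ∧
    FixedField G p ∧
    ∀ E : Y.PrimeDiv, ∃ y : X.PrimeDiv, E.1.map π = y.1 ∧ ∀ a, ord (p.app a) E = ord a y

/-- The monomials. -/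
noncomputable def monomial {K : Type} [Field K] {d : ℕ} (y : Fin d → K) (m : Fin d → ℤ) : K :=
  ∏ i, y i ^ m i

/-- Over an affine neighbourhood `V` of `z` the variety `X` is a quotient `Y / G` of a toric
variety, and `z` lies under the fixed point of the torus: the monomials other than `1` which are
regular over `V` vanish on the fibre over `z`. -/
def ToricQuotient (f : X.X ⟶ Z.X) (z : Pt Z.X) (d : ℕ) : Prop :=
  ∃ (Y : Var) (π : Y.X ⟶ X.X) (V : Z.X.Opens) (y : Fin d → Y.K), FiniteQuotient π ∧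
    IsAffineOpen V ∧ z.In V ∧ Independent y ∧
    (∀ x : Pt Y.X, x.In (pre (π ≫ f) V) → ∃ U ≤ pre (π ≫ f) V, IsAffineOpen U ∧ x.In U ∧
      ToricRing y (regOn U)) ∧
    ∀ m ≠ 0, monomial y m ∈ regOn (pre (π ≫ f) V) → ∀ x : Pt Y.X, x.map (π ≫ f) = z →
      ¬ RegAt (monomial y (-m)) x

end Vale.Agent.P283R.Sl
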