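import Vale.Agent.P283R.Sl.Fq
import Vale.Agent.P283R.Sl.Tq
import Vale.Agent.P283R.Sl.Lo
import Vale.Agent.P283R.Sl.Lq83

/-!
# P283R: the short forms imply the long ones
-/

open CategoryTheory AlgebraicGeometry

namespace Vale.Agent.P283R.Sl

theorem FinQuot.old {X Y : Var} {π : Y.X ⟶ X.X} (h : FinQuot π) : FiniteQuotient π :=
  let ⟨a, b, c, p, e, ⟨G, g⟩, i⟩ := h
  ⟨a, b, c, p, G, e, g, i⟩

theorem LciOr.old {p : Prop} {Z : Var} {z : Pt Z.X} (h : LciOr p Z z) : LciqOr p Z z := h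

end Vale.Agent.P283R.Sl
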