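import Vale.Agent.P283R.Sl

/-!
# Bounded klt complements: quotients by finite groups which act freely in codimension one
-/

open CategoryTheory AlgebraicGeometry

namespace Vale.Agent.P283R.Sl

open Var

/-- `K` is the field of the invariants of a finite group of automorphisms of `L`. -/
def Fix {L : Type} [Field L] [Algebra ℂ L] (K : Set L) : Prop :=
  ∃ G : Subgroup (L ≃ₐ[ℂ] L), Finite G ∧ K = IntermediateField.fixedField G

/-- `π : Y → X` is the quotient by a finite group which acts freely in codimension one. -/
def FreeQuot {X Y : Var} (π : Y.X ⟶ X.X) : Prop :=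
  IsFinite π ∧ Surjective π ∧ π ≫ X.str = Y.str ∧ Fix {g | ∃ y a, g = toRat (comap π y a)} ∧
    ∀ E : Y.PrimeDiv, ∃ F : X.PrimeDiv, E.1.map π = F.1 ∧
      ∀ a, ord (toRat (comap π E.1 a)) E = ord (toRat a) F

end Vale.Agent.P283R.Sl
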