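import Vale.Agent.P283R.Sl.Ga
import Vale.Agent.P283R.Sl.Bc
import Vale.Agent.P283R.Sl.Eb
import Vale.Agent.P283R.Sl.Cf2

/-!
# Bounded klt complements: classes of data and the steps between them
-/

open CategoryTheory AlgebraicGeometry

namespace Vale.Agent.P283R.Sl

open Var

/-- The classes of data `(X, B) → Z ∋ z`, where `K_X` is the divisor of `ω`. -/
abbrev Class : Type 1 :=
  ∀ (d : ℕ) (X Z : Var), (X.X ⟶ Z.X) → X.Form d → X.QDiv → Pt Z.X → Prop

/-- `X` is of Fano type, `-(K_X + B)` is nef over `Z`, and `Generated l` holds. -/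
def Base (l : ℕ) : Class := fun _ _ _ f ω B z =>
  FanoType f ω ∧ NefOver f (-logCan ω B) ∧ Generated l f ω B z

/-- The datum lies in `C`; or it does so after an étale base change; or on a crepant cover of
degree at most `l`; or `-(K_X + B)` is nef over `Z` and `X` is a tower of conics over `Y → Z`, and
all klt pairs `(Y, Δ)` with `-(K_Y + Δ)` nef over `Z` lie in `C`. -/
def Step (l : ℕ) (C : Class) : Class := fun d _ Z f ω B z =>
  C d _ Z f ω B z ∨ EtLocal (C d) f B z ∨ Covered l (C d) f B z ∨ (NefOver f (-logCan ω B) ∧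
    OverConics (fun e Y h η => ∀ Δ, Pair (0 < ·) (all Y.X) η Δ → NefOver h (-logCan η Δ) →
      C e Y Z h η Δ z) f ω B)

end Vale.Agent.P283R.Sl
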