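import Vale.Agent.P283R.Sl.Cl

/-!
# Bounded klt complements: singularities with a mild index one cover
-/

open CategoryTheory AlgebraicGeometry

namespace Vale.Agent.P283R.Sl

open Var

/-- `K_Z = div η` is `ℚ`-Cartier at `z`, and for all prime divisors `E` over `Z` with centre `z` and
all `e ≥ 1` such that `k = e A_Z(E)` is an integer, `k > 1 + b e ord_E(m_z)`; `x` is an element of
the maximal ideal `m_z`. For `b = 0` and `Z` klt: no `A_Z(E)` is one of `1, 1/2, 1/3, …`. -/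
def MildCover (d b : ℕ) (Z : Var) (z : Pt Z.X) : Prop :=
  ∃ (η : Z.Form d) (m : ℕ) (g : Z.K), η.Nonzero ∧ 0 < m ∧ LocalEq (logCan η 0) m g z ∧
    ∀ (M : Model Z) (E : M.Y.PrimeDiv), E.1.map M.π = z → ∃ x, RegAt x z ∧ ¬ RegAt x⁻¹ z ∧
      ∀ e k : ℤ, 0 < e → e * (1 + (formOrd η M.pull E - (ord (M.pull.app g) E : ℝ) / m)) = k →
        1 + b * e * ord (M.pull.app x) E < k

end Vale.Agent.P283R.Sl
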