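import Vale.Agent.P283R.Cf.Ov1
import Vale.Agent.P283R.Tg.Gl2

/-!
# P283R: contractions of relative dimension at most one over a germ
-/

open CategoryTheory AlgebraicGeometry

namespace Vale.Agent.P283R.Sl

open Var Vale.Agent.P287D

theorem tower_le {X Y Z : Var} {g : X.X ⟶ Y.X} {h : Y.X ⟶ Z.X} {d e : ℕ} {ω : X.Form d}
    (hg : Contraction g) (hd : dimension X.str = d) (he : dimension Y.str = e) (le : d ≤ e + 1)
    (hω : ω.Nonzero) (ft : FanoType (g ≫ h) ω) : ConicTower g := by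
  rcases le.eq_or_lt with de | lt
  · exact Cf.fto hg hd he de hω ft
  have := hg.2.2.1
  obtain ⟨p, hp⟩ := Cf.Fto.exists_pe (X := X.o) (Y := Y.o) g
  have ac := Cf.Fto.acl (X := X.o) (Y := Y.o) hg hp
  let _ := p.toAlgebra
  have : IsScalarTower ℂ Y.o.K X.o.K := .of_algebraMap_eq fun c => (hp.cst hg.1 c).symm
  have a : (e : Cardinal) + Algebra.trdeg Y.o.K X.o.K = d :=
    ((congrArg (· + _) he.symm).trans (trdeg_add_eq ℂ Y.o.K (A := X.o.K))).trans hd
  have b : Algebra.trdeg Y.o.K X.o.K = 0 := by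
    by_contra z
    have c : ((e + 1 : ℕ) : Cardinal) ≤ d := by
      rw [← a, Nat.cast_succ]
      exact add_le_add le_rfl (Cardinal.one_le_iff_ne_zero.2 z)
    have := Nat.cast_le.1 c
    omega
  have t : p.fieldRange = ⊤ := eq_top_iff.2 fun z _ =>
    ac z ((trdeg_eq_zero_iff.1 b).isAlgebraic z)
  exact ⟨p, hp, t ▸ .refl⟩

theorem dim_pull {X Z : Var} {f : X.X ⟶ Z.X} {p} (hf : Contraction f) (hp : IsPull f p) :
    dimension Z.str = dimension X.str :=
  have cs := (show Br.Pb (X := X.o) (Z := Z.o) f p from hp).cst hf.1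
  AlgEquiv.trdeg_eq ({ p with commutes' := cs } : Z.K ≃ₐ[ℂ] X.K)

/-- from crepant birational contractions to relative dimension at most one -/
theorem onN_rel {S : ℕ → ∀ Z : Var, Pt Z.X → Prop}
    (h : On fun d _ Z f ω B z => Crepant f ω B z ∧ S d Z z) : OnN fun d _ Z f ω B z =>
    ∃ e : ℕ, dimension Z.str = e ∧ 1 ≤ e ∧ d ≤ e + 1 ∧ TrivialOver f ω B ∧ S e Z z := by
  have k : On fun _ _ Z f ω B z => Crepant f ω B z ∧ ∃ e : ℕ, dimension Z.str = e ∧ S e Z z := by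
    intro d hd ε hε R hR
    obtain ⟨n, hn, H⟩ := h d hd ε hε R hR
    refine ⟨n, hn, fun X Z f ω B z a b c i s t ⟨u, e, v, w⟩ => H X Z f ω B z a b c i s t ⟨u, ?_⟩⟩
    obtain ⟨p, hp⟩ := u.1
    obtain rfl : e = d := Nat.cast_injective (v.symm.trans ((dim_pull s hp).trans a))
    exact w
  intro d hd ε hε R hR
  obtain ⟨n, hn, H⟩ := conic_of Cf.dwn Cf.adp' k d hd ε hε R hR
  exact ⟨n, hn, fun X Z f ω B z a b c i s t ⟨u, _, e, v, e1, le, tr, w⟩ =>
    H X Z f ω B z a b c i s t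
      ⟨tower_le (h := 𝟙 _) s a v le b ((Category.comp_id f).symm ▸ u), tr,
        v ▸ Nat.cast_ne_zero.2 (by omega), e, v, w⟩⟩

end Vale.Agent.P283R.Sl
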