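import Vale.Agent.P283R.Sl.Lq83
import Vale.Agent.P283R.Sl.Li
import Vale.Agent.P283R.T3.All

/-!
# P283R: all quotients of complete intersections, exceptional boundary
-/

open CategoryTheory AlgebraicGeometry

namespace Vale.Agent.P283R.Sl

open Var Vale.Agent.P287D

theorem pull_of_dim {X Y : Var} {g : X.X ⟶ Y.X} {d : ℕ} (hg : Contraction g)
    (hd : dimension X.str = d) (he : dimension Y.str = d) : ∃ p, IsPull g p := by
  have := hg.2.2.1
  obtain ⟨p, hp⟩ := Cf.Fto.exists_pe (X := X.o) (Y := Y.o) g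
  have ac := Cf.Fto.acl (X := X.o) (Y := Y.o) hg hp
  let _ := p.toAlgebra
  have : IsScalarTower ℂ Y.o.K X.o.K := .of_algebraMap_eq fun c => (hp.cst hg.1 c).symm
  have a : (d : Cardinal) + Algebra.trdeg Y.o.K X.o.K = d :=
    ((congrArg (· + _) he.symm).trans (trdeg_add_eq ℂ Y.o.K (A := X.o.K))).trans hd
  have b : Algebra.trdeg Y.o.K X.o.K = 0 := by
    by_contra z
    have c : ((d + 1 : ℕ) : Cardinal) ≤ d := by
      rw [Nat.cast_succ]
      exact (add_le_add le_rfl (Cardinal.one_le_iff_ne_zero.2 z)).trans_eq a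
    have := Nat.cast_le.1 c
    omega
  exact ⟨RingEquiv.ofBijective p ⟨p.injective, fun z =>
    ac z ((trdeg_eq_zero_iff.1 b).isAlgebraic z)⟩, hp⟩

theorem LciqOr.elim {p : Prop} {Z : Var} {z : Pt Z.X} (h : LciqOr p Z z) :
    LciqReg Z z ∨ p ∧ LciqSing 1 Z z 0 := by
  obtain ⟨c, W, e, w, U, S, _, _, h1, h2, h3, I, G, i, h4, h5 | h5⟩ := h
  · refine .inr ⟨h5, c, W, e, w, 0, h1, fun _ _ _ => rfl, U, 1, 1, S, _, _, h2, h3, one_pos,
      ⟨one_ne_zero, fun y _ => ?_⟩, I, G, i, h4, 1, 1, by simp⟩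
    have := Scheme.ord_mul (X := W.X) (x := y.1) (f := 1) (g := 1) one_ne_zero one_ne_zero
    rw [mul_one] at this
    simp [ord, left_eq_add.1 this]
  · exact .inl ⟨c, W, e, w, U, S, _, _, h1, h2, h3, I, G, i, h4, h5⟩

/-- crepant birational contractions with an exceptional boundary -/
theorem onN_lci0 : OnN fun d _ Z f ω B z => dimension Z.str = d ∧ TrivialOver f ω B ∧
    SameCoeff f B.coeff 0 ∧ LciqSing 1 Z z 0 := by
  intro d hd ε hε R hR
  obtain ⟨n, hn, H⟩ := on_sing (q := 1) le_rfl d hd ε hε R hR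
  exact ⟨n, hn, fun X Z f ω B z a b c i s t ⟨_, _, v, tr, u, w⟩ => H X Z f ω B z a b c i s t
    ⟨⟨pull_of_dim s a v, tr z⟩, .inr ⟨0, u, w⟩⟩⟩

/-- the class (b) of the literal file, with all quotients of complete intersections -/
theorem onN_lciqOr : OnN fun d _ Z f ω B z =>
    ∃ e : ℕ, dimension Z.str = e ∧ 1 ≤ e ∧ d ≤ e + 1 ∧ TrivialOver f ω B ∧
      (LciqOr (e = d ∧ SameCoeff f B.coeff 0) Z z ∨ 3 ≤ e ∧ MildCover e (e - 3) Z z) :=
  ((onN_rel (S := fun e W w => LciqReg W w ∨ 3 ≤ e ∧ MildCover e (e - 3) W w)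
    ((Pu.on.or on_cdv).mono fun _ _ _ _ _ _ _ u =>
      u.2.imp (fun v => ⟨u.1, v⟩) fun v => ⟨v.1, u.1, v.2⟩)).or onN_lci0).mono
    fun _ _ _ _ _ _ _ ⟨e, a, b, c, t, u⟩ => by
      rcases u with u | u
      · rcases u.elim with v | ⟨⟨rfl, v⟩, w⟩
        · exact .inl ⟨e, a, b, c, t, .inl v⟩
        · exact .inr ⟨a, t, v, w⟩
      · exact .inl ⟨e, a, b, c, t, .inr u⟩

end Vale.Agent.P283R.Sl
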