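import Vale.Agent.P283R.Sl.Cx

/-!
# Bounded klt complements: complexity less than two
-/

open CategoryTheory AlgebraicGeometry

namespace Vale.Agent.P283R.Sl

open Var

variable {X Z : Var} {d : ℕ}

/-- The complexity `dim X + ρ - ∑ a_i` over `z` is less than two: over an affine neighbourhood `V`
of `z` there is an lc pair `(X, Λ)` with `m (K_X + Λ) = div φ`; `S_i` are distinct prime divisors
which meet the fibre over `z`, `a_i` is the coefficient of `S_i` in `Λ`, and multiples of the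
`S_i`, of `K_X` and of `B` are linearly equivalent to integral combinations of `ρ` Weil divisors. -/
def LowComplexity (f : X.X ⟶ Z.X) (ω : X.Form d) (B : X.QDiv) (z : Pt Z.X) : Prop :=
  ∃ (V : Z.X.Opens) (Λ : X.QDiv) (m : ℕ) (φ : X.K) (S : Finset X.PrimeDiv) (ρ r : ℕ)
    (D : Fin ρ → X.Div), IsAffineOpen V ∧ z.In V ∧ Pair (0 ≤ ·) (pre f V) ω Λ ∧ 0 < m ∧
    (∀ x : Pt X.X, x.In (pre f V) → LocalEq (logCan ω Λ) m φ x) ∧ 0 < r ∧
    (∀ E ∈ S, E.1.map f ⤳ z ∧ InSpan (pre f V) D (QDiv.coeff (.single E r))) ∧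
    InSpan (pre f V) D (fun E => r * logCan ω 0 E) ∧
    InSpan (pre f V) D (fun E => r * B.coeff E) ∧ (d + ρ : ℚ) < 2 + ∑ E ∈ S, Λ.coeff E

end Vale.Agent.P283R.Sl
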