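import Vale.Agent.P283R.Sl.Sg3
import Vale.Agent.P283R.Sl.Tq

/-!
# Bounded klt complements: quotients of spherical varieties by finite groups
-/

open CategoryTheory AlgebraicGeometry

namespace Vale.Agent.P283R.Sl

open Var

/-- The open subset `U` of `X` is a spherical variety of dimension `d`, and the derivatives of the
regular functions on `U` vanish at the points of `S`. -/
def SphericalFixing {X : Var} (U : X.X.Opens) (d : ℕ) (S : Pt X.X → Prop) : Prop :=
  ∃ (k N : ℕ) (D : Fin k → X.Div) (L : Type) (_ : LieRing L) (_ : LieAlgebra ℂ L)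
    (s : LieIdeal ℂ L) (b : LieSubalgebra ℂ L) (ρ : LieAction L X.K k),
    (∀ E, InSpan U D (QDiv.coeff (.single E 1))) ∧ GradedGen N (fun m => sections U (comb D m)) ∧
    ρ.Spherical d (fun m => sections U (comb D m)) s b ∧
    ∀ δ, ∀ g ∈ regOn U, ∀ h x, S x → ρ.act δ (.single 0 g) = .single 0 h → RegAt h⁻¹ x → h = 0

/-- Over an affine neighbourhood `V` of `z` the variety `X` is a quotient `Y / G` of a spherical
variety, and the fibre over `z` lies over a fixed point of the affinisation. -/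
def SphericalQuotient {X Z : Var} (f : X.X ⟶ Z.X) (z : Pt Z.X) (d : ℕ) : Prop :=
  ∃ (Y : Var) (π : Y.X ⟶ X.X) (V : Z.X.Opens), FiniteQuotient π ∧ IsAffineOpen V ∧ z.In V ∧
    SphericalFixing (pre (π ≫ f) V) d fun x => x.map (π ≫ f) = z

theorem SphericalFixing.set {X : Var} {U : X.X.Opens} {d : ℕ} {S : Pt X.X → Prop}
    (h : SphericalFixing U d S) : SphericalSet U d := by
  obtain ⟨k, N, D, L, _, _, s, b, ρ, e, g, h, -⟩ := h
  exact ⟨k, N, D, L, _, _, s, b, ρ, e, g, h⟩

theorem SphericalSet.fixing {X : Var} {U : X.X.Opens} {d : ℕ} (h : SphericalSet U d) :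
    SphericalFixing U d fun _ => False := by
  obtain ⟨k, N, D, L, _, _, s, b, ρ, e, g, h⟩ := h
  exact ⟨k, N, D, L, _, _, s, b, ρ, e, g, h, fun _ _ _ _ _ a => a.elim⟩

end Vale.Agent.P283R.Sl
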