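import Vale.Agent.P283R.Sl.Sg2

/-!
# Bounded klt complements: spherical open subsets, a short form of the definition
-/

open CategoryTheory AlgebraicGeometry

namespace Vale.Agent.P283R.Sl

open Var

/-- The result of the action of `δ` on `F`. -/
noncomputable def derive {S L : Type} [CommRing S] [Algebra ℂ S] [LieRing L] [LieAlgebra ℂ L]
    (ρ : L →ₗ⁅ℂ⁆ Derivation ℂ S S) (δ : L) (F : S) : S := ρ δ F

section

variable {K L : Type} [Field K] [Algebra ℂ K] [LieRing L] [LieAlgebra ℂ L] {k : ℕ}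

/-- The actions of the Lie algebra `L` by derivations on the Laurent polynomials over `K`. -/
def LieAction (L K : Type) [Field K] [Algebra ℂ K] [LieRing L] [LieAlgebra ℂ L] (k : ℕ) : Type :=
  L →ₗ⁅ℂ⁆ Derivation ℂ (Laurent K k) (Laurent K k)

/-- The result of the action of `δ` on the Laurent polynomial `F`. -/
noncomputable def LieAction.act (ρ : LieAction L K k) (δ : L) (F : Laurent K k) : Laurent K k :=
  derive ρ δ F

/-- The subspace `N` is invariant under the action `ρ`. -/
def LieAction.Keeps (ρ : LieAction L K k) (N : Submodule ℂ (Laurent K k)) : Prop :=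
  ∀ δ, ∀ F ∈ N, ρ.act δ F ∈ N

/-- The reductive Lie algebra `L = s + b` (`s` is a semisimple ideal which acts faithfully on `K`,
`b` is a solvable subalgebra) acts on the graded ring `⊕ A_m t^m` by derivations of degree zero;
the action is locally finite and completely reducible, and `b` has an open orbit: it spans the
derivations of the function field `K` of dimension `d`. -/
structure LieAction.Spherical (ρ : LieAction L K k) (d : ℕ) (A : (Fin k → ℤ) → Set K)
    (s : LieIdeal ℂ L) (b : LieSubalgebra ℂ L) : Prop where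
  finite : Module.Finite ℂ L
  semisimple : LieAlgebra.IsSemisimple ℂ s
  solvable : LieAlgebra.IsSolvable b
  sum : ∀ δ, ∃ u ∈ s, δ - u ∈ b
  graded : ∀ δ m φ, ∃ ψ, ρ.act δ (.single m φ) = .single m ψ ∧ (φ ∈ A m → ψ ∈ A m)
  faithful : ∀ δ ∈ s, (∀ φ, ρ.act δ (.single 0 φ) = 0) → δ = 0
  locFinite : ∀ m, ∀ φ ∈ A m, ∃ N, ρ.Keeps N ∧ Module.Finite ℂ N ∧ .single m φ ∈ N
  reducible : ∀ N N', ρ.Keeps N → ρ.Keeps N' → N ≤ N' →
    (∀ F ∈ N', ∀ m, F.coeff m ∈ A m) → ∃ M, ρ.Keeps M ∧ Disjoint N M ∧ N ⊔ M = N'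
  orbit : ∃ (δ : Fin d → L) (y : Fin d → K), (∀ i, δ i ∈ b) ∧
    (Matrix.of fun i j => ρ.act (δ i) (.single 0 (y j))).det ≠ 0

theorem LieAction.Spherical.old {ρ : LieAction L K k} {d : ℕ}
    {A : (Fin k → ℤ) → Set K} {s : LieIdeal ℂ L} {b : LieSubalgebra ℂ L}
    (h : ρ.Spherical d A s b) : SphericalAction d A s b ρ :=
  ⟨h.1, h.2, h.3, h.4, h.5, h.6, h.7, h.8, h.9⟩

end

/-- The open subset `U` of `X` is a spherical variety of dimension `d`: there are Weil divisors
`D_1, …, D_k` which generate the class group of `U` such that the finitely generated ring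
`⊕ H⁰(U, ∑ m_i D_i)` carries a spherical action of a reductive Lie algebra. -/
def SphericalSet {X : Var} (U : X.X.Opens) (d : ℕ) : Prop :=
  ∃ (k N : ℕ) (D : Fin k → X.Div) (L : Type) (_ : LieRing L) (_ : LieAlgebra ℂ L)
    (s : LieIdeal ℂ L) (b : LieSubalgebra ℂ L) (ρ : LieAction L X.K k),
    (∀ E, InSpan U D (QDiv.coeff (.single E 1))) ∧ GradedGen N (fun m => sections U (comb D m)) ∧
    ρ.Spherical d (fun m => sections U (comb D m)) s b

theorem SphericalSet.old {X : Var} {U : X.X.Opens} {d : ℕ} (h : SphericalSet U d) :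
    SphericalOpen U d := by
  obtain ⟨k, N, D, L, _, _, s, b, ρ, e, g, h⟩ := h
  exact ⟨k, N, D, L, _, _, s, b, ρ, e, g, h.old⟩

end Vale.Agent.P283R.Sl
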