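import Vale.Agent.P283R.Sl

/-!
# Bounded klt complements: spherical varieties for products of general linear groups
-/

open CategoryTheory AlgebraicGeometry

namespace Vale.Agent.P283R.Sl

open Var

variable {N : ℕ}

/-- `g` is a block matrix; the blocks are the fibres of `c`. The invertible block matrices form the
group `G`, a product of general linear groups. -/
def Block (c : Fin N → ℕ) (g : Matrix (Fin N) (Fin N) ℂ) : Prop := ∀ i j, c i ≠ c j → g i j = 0

/-- The polynomials in the entries of the block matrices. -/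
abbrev BlockPoly (c : Fin N → ℕ) : Type :=
  MvPolynomial {e : Fin N × Fin N // c e.1 = c e.2} ℂ

/-- The generic block matrix. -/
noncomputable def blockVar (c : Fin N → ℕ) : Matrix (Fin N) (Fin N) (BlockPoly c) :=
  fun i j => if h : c i = c j then .X ⟨(i, j), h⟩ else 0

/-- The polynomial `x ↦ p (g x h)`. -/
noncomputable def shift (c : Fin N → ℕ) (g h : Matrix (Fin N) (Fin N) ℂ) (p : BlockPoly c) :
    BlockPoly c :=
  MvPolynomial.aeval (fun e => (g.map MvPolynomial.C * blockVar c * h.map MvPolynomial.C :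
    Matrix _ _ (BlockPoly c)) e.1.1 e.1.2) p

/-- The value of `p` at `g`. -/
noncomputable def valueAt (c : Fin N → ℕ) (g : Matrix (Fin N) (Fin N) ℂ) (p : BlockPoly c) : ℂ :=
  MvPolynomial.eval (fun e => g e.1.1 e.1.2) p

/-- The rational function `a` on `G` is the quotient `p / q`. -/
def IsRatio {c : Fin N → ℕ} (a : FractionRing (BlockPoly c)) (p q : BlockPoly c) : Prop :=
  q ≠ 0 ∧ a * algebraMap _ _ q = algebraMap _ _ p

/-- The rational function `a'` on `G` is `x ↦ a (g x h)`. -/
def Shifted {c : Fin N → ℕ} (g h : Matrix (Fin N) (Fin N) ℂ)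
    (a a' : FractionRing (BlockPoly c)) : Prop :=
  ∃ p q, IsRatio a p q ∧ IsRatio a' (shift c g h p) (shift c g h q)

/-- The open subset `U` of `X` is a spherical variety for a product `G` of general linear groups in
`GL_N`: the function field is the field of invariants of a subgroup `H` such that `B H` is dense in
`G`, `B` the triangular matrices, and the left translations permute the local rings of `U`. -/
def Spherical {X : Var} (N : ℕ) (U : X.X.Opens) : Prop :=
  ∃ (c : Fin N → ℕ) (H : Subgroup (GL (Fin N) ℂ)) (i : X.K →ₐ[ℂ] FractionRing (BlockPoly c)),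
    (∀ h ∈ H, Block c h) ∧ (∀ a, (∃ b, i b = a) ↔ ∀ h ∈ H, Shifted 1 h a a) ∧
    (∀ p, (∀ b : GL (Fin N) ℂ, Block c b → (∀ j k, k < j → b j k = 0) → ∀ h ∈ H,
      valueAt c (b * h : GL (Fin N) ℂ) p = 0) → p = 0) ∧
    ∀ g : GL (Fin N) ℂ, Block c g → ∀ x : Pt X.X, x.In U → ∃ x' : Pt X.X, x'.In U ∧
      ∀ a a', Shifted g 1 (i a) (i a') → (RegAt a x ↔ RegAt a' x')

end Vale.Agent.P283R.Sl
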