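import Mathlib.Algebra.MvPolynomial.PDeriv
import Mathlib.LinearAlgebra.Matrix.ConjTranspose
import Mathlib.LinearAlgebra.Matrix.Determinant.Basic
import Mathlib.RingTheory.UniqueFactorizationDomain.Defs
import Vale.Agent.P283R.Sl

/-!
# Bounded klt complements: spherical varieties
-/

open CategoryTheory AlgebraicGeometry

namespace Vale.Agent.P283R.Sl

open Var

variable {N : ℕ}

/-- The complex matrices. -/
abbrev Mat (N : ℕ) : Type := Matrix (Fin N) (Fin N) ℂ

/-- The value at the matrix `y` of a polynomial in the entries. -/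
noncomputable def atMat {R : Type} [CommRing R] [Algebra ℂ R] (y : Matrix (Fin N) (Fin N) R)
    (p : MvPolynomial (Fin N × Fin N) ℂ) : R :=
  MvPolynomial.aeval (fun e => y e.1 e.2) p

/-- `ξ` is tangent at the unit matrix to the Zariski closure of `S`: for a group `S`, an element
of its Lie algebra. -/
def Tangent (S : Set (Mat N)) (ξ : Mat N) : Prop :=
  ∀ p, (∀ g ∈ S, atMat g p = 0) →
    ∑ e : Fin N × Fin N, ξ e.1 e.2 * atMat (1 : Mat N) (MvPolynomial.pderiv e p) = 0

/-- `β` is an upper triangular element of the Lie algebra of `G`. -/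
def Borel (G : Set (Mat N)) (β : Mat N) : Prop := Tangent G β ∧ ∀ i j, j < i → β i j = 0

/-- `G` is a closed connected subgroup of `SL_N` with function field `L`, generic point `x` and
factorial coordinate ring, `l g` and `r g` are the left and the right translations; `G` is
self-adjoint, so reductive, and its Lie algebra is spanned by its upper triangular and its strictly
lower triangular elements. -/
structure Reductive {L : Type} [Field L] [Algebra ℂ L] (x : Matrix (Fin N) (Fin N) L)
    (G : Set (Mat N)) (l r : Mat N → L ≃ₐ[ℂ] L) : Prop where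
  det : x.det = 1
  frac : ∀ a : L, ∃ p q, a = atMat x p / atMat x q
  factorial : UniqueFactorizationMonoid
    (Algebra.adjoin ℂ (Set.range fun e : Fin N × Fin N => x e.1 e.2))
  points : ∀ g, g ∈ G ↔ ∀ p, atMat x p = 0 → atMat g p = 0
  one : 1 ∈ G
  adjoint : ∀ g ∈ G, g.conjTranspose ∈ G
  left : ∀ g ∈ G, ∀ i j, l g (x i j) = ∑ k, g i k • x k j
  right : ∀ g ∈ G, ∀ i j, r g (x i j) = ∑ k, g k j • x i k
  gauss : ∀ ξ, Tangent G ξ → ∃ β, Borel G β ∧ ∀ i j, i ≤ j → ξ i j = β i j

/-- The open subset `U` of `X` is a spherical variety, an embedding of `G / H`: the function field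
is the field of the right `H`-invariant functions on the reductive group `G`, the Lie algebras of
the Borel subgroup and of `H` span the Lie algebra of `G`, and the left translations permute the
local rings of `U`. -/
def IsSpherical {X : Var} (N : ℕ) (U : X.X.Opens) : Prop :=
  ∃ (L : Type) (_ : Field L) (_ : Algebra ℂ L) (x : Matrix (Fin N) (Fin N) L) (G H : Set (Mat N))
    (l r : Mat N → L ≃ₐ[ℂ] L) (i : X.K →ₐ[ℂ] L), Reductive x G l r ∧ H ⊆ G ∧
    (∀ a, (∃ b, i b = a) ↔ ∀ h ∈ H, r h a = a) ∧
    (∀ ξ, Tangent G ξ → ∃ β, Borel G β ∧ Tangent H (ξ - β)) ∧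
    ∀ g ∈ G, ∀ y : Pt X.X, y.In U → ∃ y' : Pt X.X, y'.In U ∧
      ∀ a a', l g (i a) = i a' → (RegAt a y ↔ RegAt a' y')

end Vale.Agent.P283R.Sl
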