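import Vale.Agent.P283R.Sl.Sq2
import Vale.Agent.P283R.Sl.Tq

/-!
# Bounded klt complements: quotients of spherical varieties by finite groups
-/

open CategoryTheory AlgebraicGeometry

namespace Vale.Agent.P283R.Sl

open Var

/-- Over an affine neighbourhood `V` of `z` the variety `X` is a quotient `Y / Γ` of a spherical
variety by a finite group, and the fibre over `z` lies over a fixed point of the affinisation. -/
def SphQuot {X Z : Var} (f : X.X ⟶ Z.X) (z : Pt Z.X) : Prop :=
  ∃ (Y : Var) (π : Y.X ⟶ X.X) (V : Z.X.Opens) (N : ℕ), FiniteQuotient π ∧ IsAffineOpen V ∧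
    z.In V ∧ SphericalFix N (pre (π ≫ f) V) {x | x.map (π ≫ f) = z}

end Vale.Agent.P283R.Sl
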