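import Vale.Agent.P283R.Sl.Sq

/-!
# Bounded klt complements: spherical varieties over a fixed point, short form
-/

open CategoryTheory AlgebraicGeometry

namespace Vale.Agent.P283R.Sl

open Var

/-- `G` is a closed connected subgroup of `SL_N` with function field `L`, generic point `x` and
factorial coordinate ring, `l g` and `r g` are the left and the right translations; `G` is
self-adjoint, so reductive, and its Lie algebra is spanned by its upper triangular and its strictly
lower triangular elements. `K` is the field of the right `H`-invariant functions, the Lie algebras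
of the Borel subgroup and of `H` span the Lie algebra of `G`, and the graphs of the left
translations on `K` satisfy `P`. -/
structure Homog {N : ℕ} {K L : Type} [Field K] [Algebra ℂ K] [Field L] [Algebra ℂ L]
    (x : Matrix (Fin N) (Fin N) L) (G H : Set (Mat N)) (l r : Mat N → L ≃ₐ[ℂ] L)
    (i : K →ₐ[ℂ] L) (P : (K → K → Prop) → Prop) : Prop where
  det : x.det = 1
  frac : ∀ a : L, ∃ p q, a = atMat x p / atMat x q
  factorial : UniqueFactorizationMonoid
    (Algebra.adjoin ℂ (Set.range fun e : Fin N × Fin N => x e.1 e.2))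
  points : ∀ g, g ∈ G ↔ ∀ p, atMat x p = 0 → atMat g p = 0
  one : 1 ∈ G
  adjoint : ∀ g ∈ G, g.conjTranspose ∈ G
  left : ∀ g ∈ G, ∀ i j, l g (x i j) = ∑ k, g i k • x k j
  right : ∀ g ∈ G, ∀ i j, r g (x i j) = ∑ k, g k j • x i k
  gauss : ∀ ξ, Tangent G ξ → ∃ β, Borel G β ∧ ∀ i j, i ≤ j → ξ i j = β i j
  sub : H ⊆ G
  inv : ∀ a, (∃ b, i b = a) ↔ ∀ h ∈ H, r h a = a
  orbit : ∀ ξ, Tangent G ξ → ∃ β, Borel G β ∧ Tangent H (ξ - β)
  acts : ∀ g ∈ G, P fun a a' => l g (i a) = i a'

/-- The open subset `U` of `X` is a spherical variety, an embedding of `G / H`: the translations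
permute the local rings of `U`, and they do not change the values of the regular functions on `U`
at the points of `S`. -/
def Sph {X : Var} (U : X.X.Opens) (S : Set (Pt X.X)) : Prop :=
  ∃ (N : ℕ) (L : Type) (_ : Field L) (_ : Algebra ℂ L) (x : _) (G H : Set (Mat N)) (l r i : _),
    Homog (K := X.K) (L := L) x G H l r i fun t =>
      (∀ y : Pt X.X, y.In U → ∃ y' : Pt X.X, y'.In U ∧
        ∀ a a', t a a' → (RegAt a y ↔ RegAt a' y')) ∧
      ∀ a ∈ regOn U, ∀ a', t a a' → a' ≠ a → ∀ y ∈ S, ¬ RegAt (a' - a)⁻¹ y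

end Vale.Agent.P283R.Sl
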