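import Vale.Agent.P283R.Sl.Pq

/-!
# Bounded klt complements: torus actions with the orbit space open in a toric variety
-/

open CategoryTheory AlgebraicGeometry

namespace Vale.Agent.P283R.Sl

open Var

/-- The prime divisor `E` lies over the hypersurface `l = 0` of the affine space with the
coordinates `s`, or dominates it: the polynomials prime to `l` are units along `E`. -/
def OverZeroSet {X : Var} {c : ℕ} (s : Fin c → X.K) (E : X.PrimeDiv) : Prop :=
  ∃ l : Poly c, Prime l ∧ ∀ g : Poly c, ¬ l ∣ g → ord (MvPolynomial.aeval s g) E = 0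

/-- The prime divisor `E` lies over the toric divisor of the ray through `v`: the order along `E`
is on `ℂ(s)` a multiple of the monomial valuation with the weights `v`. -/
def OverRay {X : Var} {c : ℕ} (s : Fin c → X.K) (v : Fin c → ℤ) (E : X.PrimeDiv) : Prop :=
  (∃ μ : ℕ, ∀ i, ord (s i) E = μ * v i) ∧ ∀ g : Poly c, ∀ a ∈ g.support,
    ord (MvPolynomial.aeval s g) E ≤ ∑ i, a i * ord (s i) E

/-- The open subset `V` of `X` is covered by affine open subsets on which a torus acts: `y` are
eigenfunctions, the invariant rational functions form the field `ℂ(s)` of a toric variety with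
the set of rays `N`, and every prime divisor of `V` lies over a divisor of it or dominates it;
the toric variety has the dimension `c ≤ 2`, or at most `2 ^ (c + 1)` rays. -/
def ToricBase {X : Var} (V : X.X.Opens) : Prop :=
  ∃ (c r : ℕ) (s : Fin c → X.K) (y : Fin r → X.K) (N : Finset (Fin c → ℤ)),
    Independent (Fin.append s y : Fin (c + r) → X.K) ∧ (c ≤ 2 ∨ N.card ≤ 2 ^ (c + 1)) ∧
    (∀ x : Pt X.X, x.In V → ∃ U ≤ V, IsAffineOpen U ∧ x.In U ∧ GradedOver s y (regOn U)) ∧
    ∀ E : X.PrimeDiv, E.1.In V → OverZeroSet s E ∨ ∃ v ∈ N, OverRay s v E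

end Vale.Agent.P283R.Sl
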