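import Vale.Agent.P283R.Cx.Bry
import Vale.Agent.P283R.To.GlSt
import Vale.Agent.P283R.To.All
import Vale.Agent.P283R.Mi.Fin
import Vale.Agent.P283R.Et.All

/-!
# P283R: the union of the classes, with toric total spaces and rings of sections
-/

open CategoryTheory AlgebraicGeometry

namespace Vale.Agent.P283R.Sl

open Var

variable {q : ℕ}

theorem on_gl (hs : Gl.SUM) : On fun d _ _ f ω B z => FanoType f ω ∧ NefOver f (-logCan ω B) ∧
    ∃ V, z.In V ∧ Toric (pre f V) d := by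
  intro d hd ε hε R hR
  obtain ⟨n, hn, H⟩ := on_tor To.qT d hd ε hε R hR
  exact ⟨n, hn, fun X Z f ω B z a b c e s t ⟨u, v, V, w, w'⟩ =>
    H X Z f ω B z a b c e s t ⟨u, v, hs X.o Z.o f d V z s w w'⟩⟩

theorem on_sing (hq : 1 ≤ q) : On fun _ _ Z f ω B z =>
    Crepant f ω B z ∧ (QuotSing Z z ∨ ∃ D, SameCoeff f B.coeff D ∧ LciqSing q Z z D) :=
  ((on_quot Et.qe0).or (on_lciq Mi.stmE hq)).mono fun _ _ _ _ _ _ _ u =>
    u.2.imp (fun v => ⟨u.1, v⟩) fun v => ⟨u.1, v⟩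

/-- toric total spaces, quotient singularities -/
theorem on_g (hs : Gl.SUM) (hq : 1 ≤ q) : On fun d _ Z f ω B z =>
    (FanoType f ω ∧ NefOver f (-logCan ω B) ∧ ∃ V, z.In V ∧ Toric (pre f V) d) ∨
      (Crepant f ω B z ∧ (QuotSing Z z ∨ ∃ D, SameCoeff f B.coeff D ∧ LciqSing q Z z D)) :=
  (on_gl hs).or (on_sing hq)

/-- the same with rings of sections, birational contractions -/
theorem on_gx (hs : Gl.SUM) (h : Cox.QX) (k : ℕ) (hq : 1 ≤ q) : On fun d _ Z f ω B z =>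
    (FanoType f ω ∧ NefOver f (-logCan ω B) ∧
      ((∃ V, z.In V ∧ Toric (pre f V) d) ∨ ((∃ p, IsPull f p) ∧ CoxCI k q f ω B z))) ∨
      (Crepant f ω B z ∧ (QuotSing Z z ∨ ∃ D, SameCoeff f B.coeff D ∧ LciqSing q Z z D)) :=
  (((on_gl hs).or (on_cox h k hq)).or (on_sing hq)).mono fun _ _ _ _ _ _ _ u =>
    u.imp_left fun u => u.2.2.imp (fun v => ⟨u.1, u.2.1, v⟩) fun v => ⟨u.1, u.2.1, v⟩

/-- the same with rings of sections, all contractions -/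
theorem on_gy (hs : Gl.SUM) (h : Cox.QY) (k : ℕ) (hq : 1 ≤ q) : On fun d _ Z f ω B z =>
    (FanoType f ω ∧ NefOver f (-logCan ω B) ∧
      ((∃ V, z.In V ∧ Toric (pre f V) d) ∨ CoxCI k q f ω B z)) ∨
      (Crepant f ω B z ∧ (QuotSing Z z ∨ ∃ D, SameCoeff f B.coeff D ∧ LciqSing q Z z D)) :=
  (((on_gl hs).or (on_coxY h k hq)).or (on_sing hq)).mono fun _ _ _ _ _ _ _ u =>
    u.imp_left fun u => u.2.2.imp (fun v => ⟨u.1, u.2.1, v⟩) fun v => ⟨u.1, u.2.1, v⟩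

end Vale.Agent.P283R.Sl
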