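import Vale.Agent.P283R.Sl.Un3
import Vale.Agent.P283R.Hz.St

/-!
# P283R: complete intersection rings of sections, all contractions
-/

open CategoryTheory AlgebraicGeometry

namespace Vale.Agent.P283R.Sl

open Var

theorem onN_ci (h : Hz.HZE) {q : ℕ} (hq : 1 ≤ q) (l : ℕ) : OnN fun _ _ _ f ω B z =>
    ∃ k c, min k c ≤ l ∧ CoxCIc k c q f ω B z :=
  on_minY Cx.ext Cx.aff Cx.big (Cx.qyU_of Cx.corp Cx.mdp h.hzu Cx.tpy)
    (Cy.qyc h.hzd Cx.tpy hq) hq l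

end Vale.Agent.P283R.Sl
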