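import Vale.Agent.P283R.Sl.Tq2

/-!
# Bounded klt complements: finite quotients of the members of a class, the short word
-/

open CategoryTheory AlgebraicGeometry

namespace Vale.Agent.P283R.Sl

open Var

/-- `X = Y / G` for a finite group `G` which acts freely in codimension one, `Y → W → Z` is the
Stein factorisation, `w` is the only point over `z`, and `Y → W` lies in the class `C` at `w`. -/
def QuotOf {d : ℕ} (C : ∀ Y W : Var, (Y.X ⟶ W.X) → Y.Form d → Pt W.X → Prop) {X Z : Var}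
    (f : X.X ⟶ Z.X) (z : Pt Z.X) : Prop :=
  ∃ (Y W : Var) (π : Y.X ⟶ X.X) (g : Y.X ⟶ W.X) (κ : W.X ⟶ Z.X) (η : Y.Form d) (w : Pt W.X),
    FreeQuotient π ∧ IsFinite κ ∧ g ≫ κ = π ≫ f ∧ (∀ w' : Pt W.X, w'.map κ = z ↔ w' = w) ∧
    η.Nonzero ∧ Contraction g ∧ C Y W g η w

end Vale.Agent.P283R.Sl
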