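import Vale.Agent.P283R.Sl.Sq5
import Vale.Agent.P283R.Sl.Fq2
import Vale.Agent.P283R.Cq.All
import Vale.Agent.P283R.Tb.All
import Vale.Agent.P283R.Sq.All3
import Vale.Agent.P283R.Sq.All2
import Vale.Agent.P283R.Ko.Tf
import Vale.Agent.P283R.Lx.Lm3
import Vale.Agent.P283R.Ft.All

/-!
# P283R: the classes of the literal file in the short words
-/

open CategoryTheory AlgebraicGeometry

namespace Vale.Agent.P283R.Sl

open Var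

theorem onN_cb (M : ℕ → ℕ) : OnN fun d _ _ f _ _ z => ∃ V, z.In V ∧ CoxBase (M d) (pre f V) := by
  intro d hd ε hε R hR
  obtain ⟨n, hn, H⟩ := on_cxq M d hd ε hε R hR
  refine ⟨n, hn, fun X Z f ω B z a b c i s t ⟨u, v, V, p, q⟩ => H X Z f ω B z a b c i s t ?_⟩
  obtain ⟨x, hx⟩ := s.2.2.1.surj z
  exact ⟨u, v, V, p, q.old x (show f x ∈ V from hx ▸ p)⟩

theorem onN_sph : OnN fun _ _ _ f _ _ z => ∃ V, z.In V ∧ Sph (pre f V) ∅ :=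
  on_sqb.mono fun _ _ _ _ _ _ _ ⟨u, v, V, p, q⟩ => let ⟨N, k⟩ := q.old; ⟨u, v, V, N, p, k.old⟩

theorem onN_sphq : OnN fun _ X _ f _ _ z => ∃ V, z.In V ∧ IsAffineOpen V ∧
    ∃ (S : Var) (π : S.X ⟶ X.X), FiniteQuotient π ∧
      Sph (pre (π ≫ f) V) {x | x.map (π ≫ f) = z} :=
  on_sphq.mono fun _ _ _ _ _ _ _ ⟨u, v, V, p, a, S, π, b, q⟩ =>
    let ⟨N, k⟩ := q.old; ⟨u, v, S, π, V, N, b, a, p, k⟩

theorem onN_v3 (M : ℕ → ℕ) : OnN fun e T _ h θ _ w =>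
    TorsionFreeOver h w ∨ MldCx h θ w ∨ ∃ V, w.In V ∧
      (Sph (pre h V) ∅ ∨ ToricBase (pre h V) ∨ CoxBase (M e) (pre h V) ∨ IsAffineOpen V ∧
        ∃ (S : Var) (π : S.X ⟶ T.X), FinQuot π ∧ Sph (pre (π ≫ h) V) {x | x.map (π ≫ h) = w}) :=
  onN_tf.or (onN_lm.or ((onN_sph.or (OnN.or on_tb ((onN_cb M).or onN_sphq))).mono
    fun _ _ _ _ _ _ _ ⟨V, i, j⟩ => j.imp (fun k => ⟨V, i, k⟩) fun j => j.imp (fun k => ⟨V, i, k⟩)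
      fun j => j.imp (fun k => ⟨V, i, k⟩) fun ⟨a, S, π, b, k⟩ => ⟨V, i, a, S, π, b.old, k⟩))

end Vale.Agent.P283R.Sl
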