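import Vale.Agent.P283R.Sl.V3
import Vale.Agent.P283R.Sl.Fq3
import Vale.Agent.P283R.Tq.Cmp48

/-!
# P283R: the classes of the literal file in the short words, second form
-/

open CategoryTheory AlgebraicGeometry

namespace Vale.Agent.P283R.Sl

open Var

theorem onN_sphf : OnN fun _ X _ f _ _ z => ∃ V, z.In V ∧ IsAffineOpen V ∧
    ∃ (S : Var) (π : S.X ⟶ X.X), FreeQuot π ∧ Sph (pre (π ≫ f) V) {x | x.map (π ≫ f) = z} :=
  onN_sphq.mono fun _ _ _ _ _ _ _ ⟨V, i, a, S, π, b, k⟩ => ⟨V, i, a, S, π, FreeQuotient.fin b, k⟩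

theorem onN_v3a (M : ℕ → ℕ) : OnN fun e T _ h θ _ w =>
    TorsionFreeOver h w ∨ MldCx h θ w ∨ ∃ V, w.In V ∧
      (CoxBase (M e) (pre h V) ∨ Sph (pre h V) ∅ ∨ IsAffineOpen V ∧
        ∃ (S : Var) (π : S.X ⟶ T.X), FreeQuot π ∧ Sph (pre (π ≫ h) V) {x | x.map (π ≫ h) = w}) :=
  onN_tf.or (onN_lm.or (((onN_cb M).or (onN_sph.or onN_sphf)).mono
    fun _ _ _ _ _ _ _ ⟨V, i, j⟩ => j.imp (fun k => ⟨V, i, k⟩) fun j => j.imp (fun k => ⟨V, i, k⟩)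
      fun k => ⟨V, i, k⟩))

end Vale.Agent.P283R.Sl
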