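import Vale.Agent.P283R.Sl.Zz

/-!
# Bounded klt complements: a condition on the subvarieties through a point
-/

open CategoryTheory AlgebraicGeometry

namespace Vale.Agent.P283R.Sl

/-- Every irreducible closed subset through `w` other than `w` (the closure of `η`) contains a
closed point at which `C` holds. -/
def Nearby {W : Var} (C : Pt W.X → Prop) (w : Pt W.X) : Prop :=
  ∀ η : Pt W.X, η ⤳ w → η ≠ w → ∃ v : Pt W.X, v.Closed ∧ η ⤳ v ∧ C v

end Vale.Agent.P283R.Sl
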