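import Vale.Agent.P283R.Sl.Cx
import Vale.Agent.P283R.Sl.Eb

/-!
# Bounded klt complements: fibrations which are étale over a fibration with an attracting point
-/

open CategoryTheory AlgebraicGeometry

namespace Vale.Agent.P283R.Sl

open Var

variable {W X Y Z : Var} {d : ℕ}

/-- `D' ∼ π^* D` on the open set `O`. -/
def PullLin (π : Y.X ⟶ X.X) (O : Y.X.Opens) (D' : Y.Div) (D : X.Div) : Prop :=
  ∃ j : Y.K, j ≠ 0 ∧ ∀ (E : Y.PrimeDiv) (F : X.PrimeDiv), E.1.In O → E.1.map π = F.1 →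
    D' E = D F + ord j E

/-- `g` is the base change along an étale map `(W, w) → (Z, z)`, with `Z` affine, of a contraction
`f : X → Z` which satisfies `C` at `z`; near the fibre over `w` all Weil divisors are pulled back
from `X` up to linear equivalence; every point of `Z` is moved into every neighbourhood of `z` by
an étale endomorphism of `f` which acts trivially on the class group of `X`. -/
def EtOver (C : ∀ X Z : Var, (X.X ⟶ Z.X) → X.Form d → Pt Z.X → Prop) (g : Y.X ⟶ W.X)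
    (w : Pt W.X) : Prop :=
  ∃ (X Z : Var) (f : X.X ⟶ Z.X) (π : Y.X ⟶ X.X) (e : W.X ⟶ Z.X) (z : Pt Z.X) (ω : X.Form d),
    EtNb e w z ∧ BaseChange f e g π ∧ Contraction f ∧ IsAffine Z.X ∧ ω.Nonzero ∧ C X Z f ω z ∧
    (∀ D' : Y.Div, ∃ (D : X.Div) (U : W.X.Opens), w.In U ∧ PullLin π (pre g U) D' D) ∧
    ∀ (U : Z.X.Opens) (v : Pt Z.X), z.In U → ∃ (σ : X.X ⟶ X.X) (τ : Z.X ⟶ Z.X), Etale τ ∧
      τ ≫ Z.str = Z.str ∧ BaseChange f τ f σ ∧ (v.map τ).In U ∧ ∀ D, PullLin σ (all X.X) D D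

/-- `C` holds at the closed points near `w` other than `w`. -/
def Punctured (C : Pt W.X → Prop) (w : Pt W.X) : Prop :=
  ∃ U : W.X.Opens, w.In U ∧ ∀ v : Pt W.X, v.In U → v.Closed → v ≠ w → C v

end Vale.Agent.P283R.Sl
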